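import Mathlib

/-!
A parity identity over `ZMod 2` used for the staircase tensor square.
-/

namespace Vale.Agent.P197

variable {ι : Type*} [DecidableEq ι] (c : ι → ι → Fin 3 → Fin 3 → ZMod 2)

/-- The weight of an arrow `i → j`: loops weigh `1`. -/
def arrowWt (d : ι → Fin 3) (i j : ι) : ZMod 2 :=
  if j = i then 1 else c i j (d i) (d j)

lemma zmod2_pow_eq_self (x : ZMod 2) {k : ℕ} (hk : k ≠ 0) : x ^ k = x := by
  have h : x = 0 ∨ x = 1 := by revert x; decide
  rcases h with rfl | rfl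
  · exact zero_pow hk
  · exact one_pow k

variable [Fintype ι]

/-- The contribution of a map `φ`, summed over all labellings. -/
def arrowTerm (φ : ι → ι) : ZMod 2 := ∑ d : ι → Fin 3, ∏ i, arrowWt c d i (φ i)

lemma arrowTerm_eq_zero (hs : ∀ i j a b, c i j a b = c j i b a)
    (h0 : ∀ i j b, i ≠ j → ∑ a, c i j a b = 0) (φ : ι → ι) (v : ι) (hv : φ v ≠ v)
    (hpre : ∀ u, φ u = v → φ v = u) : arrowTerm c φ = 0 := by
  classical
  set S : Finset ι := Finset.univ.filter (fun i => i = v ∨ φ i = v) with hS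
  have hfac : ∀ d : ι → Fin 3, ∏ i, arrowWt c d i (φ i) =
      c v (φ v) (d v) (d (φ v)) * ∏ i ∈ Sᶜ, arrowWt c d i (φ i) := by
    intro d
    rw [← Finset.prod_mul_prod_compl S]
    congr 1
    rw [Finset.prod_congr rfl (g := fun _ => c v (φ v) (d v) (d (φ v))), Finset.prod_const,
      zmod2_pow_eq_self _ (Finset.card_ne_zero_of_mem (a := v) (by simp [hS]))]
    intro i hi
    rw [hS, Finset.mem_filter] at hi
    rcases hi.2 with rfl | h
    · simp [arrowWt, hv]
    · have hiv : i ≠ v := fun e => hv (e ▸ h)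
      rw [arrowWt, h, if_neg (Ne.symm hiv), hpre i h, hs]
  unfold arrowTerm
  rw [← Equiv.sum_comp (Equiv.piSplitAt v (fun _ => Fin 3)).symm, Fintype.sum_prod_type_right]
  refine Finset.sum_eq_zero fun e _ => ?_
  have hval : ∀ a, ((Equiv.piSplitAt v (fun _ => Fin 3)).symm (a, e)) v = a := by intro a; simp
  have hoth : ∀ a i (h : i ≠ v),
      ((Equiv.piSplitAt v (fun _ => Fin 3)).symm (a, e)) i = e ⟨i, h⟩ := by
    intro a i h; simp [h]
  have hK : ∀ a a' : Fin 3,
      ∏ i ∈ Sᶜ, arrowWt c ((Equiv.piSplitAt v (fun _ => Fin 3)).symm (a, e)) i (φ i) =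
        ∏ i ∈ Sᶜ, arrowWt c ((Equiv.piSplitAt v (fun _ => Fin 3)).symm (a', e)) i (φ i) := by
    intro a a'
    refine Finset.prod_congr rfl fun i hi => ?_
    simp only [hS, Finset.mem_compl, Finset.mem_filter, Finset.mem_univ, true_and, not_or] at hi
    simp only [arrowWt, hoth _ i hi.1, hoth _ (φ i) hi.2]
  rw [Finset.sum_congr rfl (g := fun a => c v (φ v) a (e ⟨φ v, hv⟩) *
    ∏ i ∈ Sᶜ, arrowWt c ((Equiv.piSplitAt v (fun _ => Fin 3)).symm (0, e)) i (φ i))]
  · rw [← Finset.sum_mul, h0 v (φ v) _ (Ne.symm hv), zero_mul]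
  · intro a _
    rw [hfac, hval, hoth _ (φ v) hv, hK a 0]

lemma arrowTerm_eq_zero_of_not_bijective (hs : ∀ i j a b, c i j a b = c j i b a)
    (h0 : ∀ i j b, i ≠ j → ∑ a, c i j a b = 0) (φ : ι → ι) (hφ : ¬ Function.Bijective φ) :
    arrowTerm c φ = 0 := by
  classical
  by_contra hne
  refine hφ (Finite.surjective_iff_bijective.mp fun v => ?_)
  by_cases hv : φ v = v
  · exact ⟨v, hv⟩
  · by_contra hno
    exact hne (arrowTerm_eq_zero c hs h0 φ v hv fun u hu => absurd ⟨u, hu⟩ hno)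

lemma arrowTerm_symm (hs : ∀ i j a b, c i j a b = c j i b a) (σ : Equiv.Perm ι) :
    arrowTerm c (σ⁻¹ : Equiv.Perm ι) = arrowTerm c σ := by
  refine Finset.sum_congr rfl fun d _ => ?_
  rw [← Equiv.prod_comp σ]
  refine Finset.prod_congr rfl fun i _ => ?_
  rw [Equiv.Perm.coe_inv, Equiv.symm_apply_apply]
  by_cases h : σ i = i
  · simp [arrowWt, h]
  · simp only [arrowWt, if_neg h, if_neg (Ne.symm h)]
    exact hs _ _ _ _

/-- Summed over all ternary labellings, the product of `1 + ∑ c` is odd. -/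
theorem tri_parity {ι : Type*} [Fintype ι] [DecidableEq ι]
    (c : ι → ι → Fin 3 → Fin 3 → ZMod 2) (hs : ∀ i j a b, c i j a b = c j i b a)
    (h0 : ∀ i j b, i ≠ j → ∑ a, c i j a b = 0) :
    ∑ d : ι → Fin 3, ∏ i, (1 + ∑ j ∈ Finset.univ.erase i, c i j (d i) (d j)) = 1 := by
  classical
  have hexp : ∀ d : ι → Fin 3, ∏ i, (1 + ∑ j ∈ Finset.univ.erase i, c i j (d i) (d j)) =
      ∑ φ : ι → ι, ∏ i, arrowWt c d i (φ i) := by
    intro d
    rw [← Fintype.prod_sum]
    refine Finset.prod_congr rfl fun i _ => ?_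
    rw [← Finset.add_sum_erase _ _ (Finset.mem_univ i)]
    refine congrArg₂ _ (by simp [arrowWt]) (Finset.sum_congr rfl fun j hj => ?_)
    simp [arrowWt, Finset.ne_of_mem_erase hj]
  simp only [hexp]
  rw [Finset.sum_comm]
  change ∑ φ : ι → ι, arrowTerm c φ = 1
  have hperm : ∑ φ : ι → ι, arrowTerm c φ = ∑ σ : Equiv.Perm ι, arrowTerm c σ := by
    symm
    refine Finset.sum_of_injOn (fun σ : Equiv.Perm ι => (σ : ι → ι))
      (fun _ _ _ _ h => Equiv.coe_fn_injective h) (fun _ _ => by simp) ?_ (fun _ _ => rfl)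
    intro φ _ hφ
    exact arrowTerm_eq_zero_of_not_bijective c hs h0 φ
      fun hb => hφ ⟨Equiv.ofBijective φ hb, by simp, rfl⟩
  rw [hperm, ← Finset.add_sum_erase _ _ (Finset.mem_univ (1 : Equiv.Perm ι))]
  have hone : arrowTerm c (1 : Equiv.Perm ι) = 1 := by
    have h3 : (3 : ZMod 2) = 1 := by decide
    simp [arrowTerm, arrowWt, h3]
  have hrest : ∑ σ ∈ (Finset.univ : Finset (Equiv.Perm ι)).erase 1, arrowTerm c σ = 0 := by
    refine Finset.sum_involution (fun σ _ => σ⁻¹) ?_ ?_ ?_ ?_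
    · intro σ _
      rw [arrowTerm_symm c hs σ]
      exact CharTwo.add_self_eq_zero _
    · intro σ hσ hne hinv
      refine Finset.ne_of_mem_erase hσ (Equiv.ext fun v => ?_)
      by_contra hv
      refine hne (arrowTerm_eq_zero c hs h0 σ v hv fun u hu => ?_)
      have : σ⁻¹ v = u := by rw [← hu, Equiv.Perm.coe_inv, Equiv.symm_apply_apply]
      rwa [hinv] at this
    · intro σ hσ
      simp only [Finset.mem_erase, Finset.mem_univ, and_true, ne_eq, inv_eq_one] at hσ ⊢
      exact hσ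
    · intro σ _
      simp
  rw [hone, hrest, add_zero]

end Vale.Agent.P197
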