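import Mathlib
import Vale.Agent.P197.Parity

/-!
# Interleaved splittings: an odd number of admissible choices
-/

namespace Vale.Agent.P197

open Finset

variable {Z : Type*} [DecidableEq Z]

set_option linter.unusedSectionVars false

/-- Elements of even rank. -/
def evs (pos : Z → ℕ) (B : Finset Z) : Finset Z :=
  B.filter (fun x => Even (B.filter (fun z => pos z < pos x)).card)

theorem evs_subset (pos : Z → ℕ) (B : Finset Z) : evs pos B ⊆ B := filter_subset _ _

/-- Half of the elements, rounded up, have even rank. -/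
theorem card_evs (pos : Z → ℕ) (hpos : Function.Injective pos) (B : Finset Z) :
    (evs pos B).card = (B.card + 1) / 2 := by
  induction hB : B.card generalizing B with
  | zero => rw [card_eq_zero] at hB; subst hB; simp [evs]
  | succ n ih =>
    obtain ⟨a, ha, hmax⟩ := B.exists_max_image pos (card_pos.1 (by omega))
    have hlt : ∀ z ∈ B.erase a, pos z < pos a := by
      intro z hz
      simp at hz
      exact lt_of_le_of_ne (hmax z hz.2) (fun h => hz.1 (hpos h))
    have hcard : (B.erase a).card = n := by rw [card_erase_of_mem ha]; omega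
    have htop : B.filter (fun z => pos z < pos a) = B.erase a := by
      ext z; simp only [mem_filter, mem_erase]
      refine ⟨fun ⟨h1, h2⟩ => ⟨fun h => by subst h; omega, h1⟩, fun h => ⟨h.2, hlt z (mem_erase.2 h)⟩⟩
    have hother : ∀ x ∈ B.erase a,
        B.filter (fun z => pos z < pos x) = (B.erase a).filter (fun z => pos z < pos x) := by
      intro x hx
      ext z; simp only [mem_filter, mem_erase]
      refine ⟨fun ⟨h1, h2⟩ => ⟨⟨fun h => ?_, h1⟩, h2⟩, fun h => ⟨h.1.2, h.2⟩⟩
      subst h; have := hlt x hx; omega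
    have hsplit : evs pos B = if Even n then insert a (evs pos (B.erase a)) else evs pos (B.erase a) := by
      ext x
      rcases eq_or_ne x a with rfl | hxa
      · unfold evs; rw [mem_filter, htop, hcard]
        split_ifs with h <;> simp [ha, h]
      · have hh : x ∈ evs pos B ↔ x ∈ evs pos (B.erase a) := by
          unfold evs
          simp only [mem_filter]
          constructor
          · rintro ⟨h1, h2⟩
            have hx' : x ∈ B.erase a := mem_erase.2 ⟨hxa, h1⟩
            rw [hother x hx'] at h2; exact ⟨hx', h2⟩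
          · rintro ⟨h1, h2⟩
            rw [hother x h1]; exact ⟨(mem_erase.1 h1).2, h2⟩
        split_ifs <;> simp [hh, hxa]
    have hnot : a ∉ evs pos (B.erase a) := fun h => by simpa using evs_subset _ _ h
    rw [hsplit]
    split_ifs with h
    · rw [card_insert_of_notMem hnot, ih _ hcard]; obtain ⟨k, rfl⟩ := h; omega
    · rw [ih _ hcard]; obtain ⟨k, rfl⟩ := Nat.not_even_iff_odd.1 h; omega

/-- The injectivity condition for a choice `A` of the long column inside `E`. -/
def Cond (pos : Z → ℕ) (M : Z → ℕ) (E A : Finset Z) : Prop :=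
  Set.InjOn M ↑A ∧ Set.InjOn M ↑(evs pos (E \ A)) ∧ Set.InjOn M ↑((E \ A) \ evs pos (E \ A))

theorem injOn_pair {Z β : Type*} {M : Z → β} {u v : Z} {S : Set Z} (hS : Set.InjOn M S)
    (hu : u ∈ S) (hv : v ∈ S) (h : M u = M v) : u = v := hS hu hv h

theorem zmod2_even (n : ℕ) : (n : ZMod 2) = if Even n then 0 else 1 := by
  split_ifs with h
  · rw [ZMod.natCast_eq_zero_iff_even.2 h]
  · exact ZMod.natCast_eq_one_iff_odd.2 (Nat.not_even_iff_odd.1 h)

/-- Triples labelled `i < r` and singles labelled `r ≤ i < l`: an odd number of admissible sets. -/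
theorem interleave_parity (pos : Z → ℕ) (hpos : Function.Injective pos) (E : Finset Z) (M : Z → ℕ)
    (r l : ℕ) (hrl : r ≤ l)
    (hcount : ∀ i, (E.filter (fun x => M x = i)).card = if i < r then 3 else if i < l then 1 else 0)
    [DecidablePred (Cond pos M E)] :
    ((((powersetCard l E).filter (Cond pos M E)).card : ℕ) : ZMod 2) = 1 := by
  classical
  have htrip : ∀ i : Fin r, ∃ t : Fin 3 → Z, Function.Injective t ∧
      univ.image t = E.filter (fun x => M x = i.val) := by
    intro i
    have h3 : (E.filter (fun x => M x = i.val)).card = 3 := by rw [hcount, if_pos i.isLt]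
    let e := ((E.filter (fun x => M x = i.val)).equivFinOfCardEq h3).symm
    refine ⟨fun a => (e a).val, fun a b h => e.injective (Subtype.ext h), ?_⟩
    ext x; simp only [mem_image, mem_univ, true_and]
    constructor
    · rintro ⟨a, rfl⟩; exact (e a).2
    · intro hx; exact ⟨e.symm ⟨x, hx⟩, by simp⟩
  choose t ht htim using htrip
  have htmem : ∀ i a, t i a ∈ E ∧ M (t i a) = i.val := by
    intro i a
    have : t i a ∈ univ.image (t i) := mem_image_of_mem _ (mem_univ a)
    rw [htim] at this; simpa using this
  have htne : ∀ i j a b, t i a = t j b → i = j ∧ a = b := by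
    intro i j a b h
    have hij : i = j := Fin.ext (by rw [← (htmem i a).2, ← (htmem j b).2, h])
    subst hij; exact ⟨rfl, ht i h⟩
  have hlab : ∀ x ∈ E, M x < l := by
    intro x hx
    by_contra h
    have := hcount (M x)
    rw [if_neg (by omega), if_neg h, card_eq_zero, filter_eq_empty_iff] at this
    exact this hx rfl
  have honto : ∀ x ∈ E, M x < r → ∃ i a, t i a = x := by
    intro x hx h
    have : x ∈ univ.image (t ⟨M x, h⟩) := by rw [htim]; simp [hx]
    obtain ⟨a, -, ha⟩ := mem_image.1 this
    exact ⟨_, a, ha⟩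
  -- the candidate sets
  let Ad : (Fin r → Fin 3) → Finset Z := fun d =>
    E.filter (fun x => r ≤ M x) ∪ univ.image (fun i => t i (d i))
  let pr : Fin r → Fin 3 → Finset Z := fun i a => (univ.erase a).image (t i)
  have hmemAd : ∀ d i a, t i a ∈ Ad d ↔ a = d i := by
    intro d i a
    simp only [Ad, mem_union, mem_filter, mem_image, mem_univ, true_and]
    constructor
    · rintro (⟨-, h⟩ | ⟨j, h⟩)
      · have := (htmem i a).2; have := i.isLt; omega
      · obtain ⟨rfl, rfl⟩ := htne _ _ _ _ h; rfl
    · rintro rfl; exact Or.inr ⟨i, rfl⟩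
  have hAdsub : ∀ d, Ad d ⊆ E := by
    intro d x hx
    simp only [Ad, mem_union, mem_filter, mem_image, mem_univ, true_and] at hx
    rcases hx with h | ⟨i, rfl⟩
    · exact h.1
    · exact (htmem _ _).1
  have hAdinj : ∀ d, Set.InjOn M ↑(Ad d) := by
    intro d x hx y hy h
    rw [mem_coe] at hx hy
    by_cases hc : M x < r
    · obtain ⟨i, a, rfl⟩ := honto x (hAdsub d hx) hc
      obtain ⟨j, b, rfl⟩ := honto y (hAdsub d hy) (h ▸ hc)
      have : i = j := Fin.ext (by rw [← (htmem i a).2, ← (htmem j b).2, h])
      subst this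
      rw [(hmemAd d i a).1 hx, (hmemAd d i b).1 hy]
    · have h1 : (E.filter (fun z => M z = M x)).card = 1 := by
        rw [hcount, if_neg hc, if_pos (hlab x (hAdsub d hx))]
      exact card_le_one.1 h1.le x (by simp [hAdsub d hx]) y (by simp [hAdsub d hy, h])
  have hAdcard : ∀ d, (Ad d).card = l := by
    intro d
    have : (Ad d).image M = range l := by
      ext i; simp only [mem_image, mem_range]
      constructor
      · rintro ⟨x, hx, rfl⟩; exact hlab x (hAdsub d hx)
      · intro hi
        by_cases hc : i < r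
        · exact ⟨t ⟨i, hc⟩ (d ⟨i, hc⟩), (hmemAd d _ _).2 rfl, (htmem _ _).2⟩
        · obtain ⟨x, hx⟩ := card_pos.1 (show 0 < (E.filter (fun z => M z = i)).card by
            rw [hcount, if_neg hc, if_pos hi]; omega)
          simp at hx
          exact ⟨x, by simp [Ad, hx, Nat.le_of_not_lt hc], hx.2⟩
    rw [← card_image_of_injOn (hAdinj d), this, card_range]
  -- every admissible set is a candidate
  have hclass : ∀ A ∈ powersetCard l E, Set.InjOn M ↑A → ∃ d, A = Ad d := by
    intro A hA hinj
    rw [mem_powersetCard] at hA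
    have himg : A.image M = range l := eq_of_subset_of_card_le
      (fun i hi => by obtain ⟨x, hx, rfl⟩ := mem_image.1 hi; exact mem_range.2 (hlab x (hA.1 hx)))
      (by rw [card_range, card_image_of_injOn hinj, hA.2])
    have hd : ∀ i : Fin r, ∃ a, t i a ∈ A := by
      intro i
      have : i.val ∈ A.image M := by rw [himg]; have := i.isLt; simp; omega
      obtain ⟨x, hx, hxi⟩ := mem_image.1 this
      obtain ⟨j, a, rfl⟩ := honto x (hA.1 hx) (by rw [hxi]; exact i.isLt)
      have : i = j := Fin.ext (by rw [← hxi, (htmem j a).2])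
      exact ⟨a, this ▸ hx⟩
    choose d hd using hd
    refine ⟨d, (eq_of_subset_of_card_le (fun x hx => ?_) (by rw [hA.2, hAdcard])).symm⟩
    simp only [Ad, mem_union, mem_filter, mem_image, mem_univ, true_and] at hx
    rcases hx with ⟨h1, h2⟩ | ⟨i, rfl⟩
    · have : M x ∈ A.image M := by rw [himg]; simpa using hlab x h1
      obtain ⟨y, hy, hxy⟩ := mem_image.1 this
      have : (E.filter (fun z => M z = M x)).card = 1 := by
        rw [hcount, if_neg (by omega), if_pos (hlab x h1)]
      have := card_le_one.1 this.le x (by simp [h1]) y (by simp [hA.1 hy, hxy])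
      exact this ▸ hy
    · exact hd i
  have hAdinj' : Function.Injective Ad := by
    intro d d' h
    funext i
    exact (hmemAd d' i (d i)).1 (h ▸ (hmemAd d i (d i)).2 rfl)
  -- reduce to the choices
  have hred : (powersetCard l E).filter (Cond pos M E)
      = (univ.filter (fun d => Cond pos M E (Ad d))).image Ad := by
    ext A; simp only [mem_filter, mem_image, mem_univ, true_and]
    constructor
    · rintro ⟨h1, h2⟩
      obtain ⟨d, rfl⟩ := hclass A h1 h2.1
      exact ⟨d, h2, rfl⟩
    · rintro ⟨d, h2, rfl⟩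
      exact ⟨mem_powersetCard.2 ⟨hAdsub d, hAdcard d⟩, h2⟩
  rw [hred, card_image_of_injective _ hAdinj', card_filter, Nat.cast_sum]
  -- the crossing matrix
  let c : Fin r → Fin r → Fin 3 → Fin 3 → ZMod 2 := fun i j a b =>
    ∑ x ∈ pr i a, ∑ z ∈ pr j b, if pos z < pos x then 1 else 0
  have herase : ∀ (a : Fin 3) (f : Fin 3 → ZMod 2), ∑ e ∈ univ.erase a, f e = f (a+1) + f (a+2) := by
    intro a f
    have : univ.erase a = {a+1, a+2} := by revert a; decide
    rw [this, sum_pair (by revert a; decide)]
  have hpr : ∀ i a (f : Z → ZMod 2), ∑ x ∈ pr i a, f x = f (t i (a+1)) + f (t i (a+2)) := by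
    intro i a f
    rw [sum_image (fun x _ y _ h => ht i h), herase]
  have hc0 : ∀ i j b, i ≠ j → ∑ a, c i j a b = 0 := by
    intro i j b _
    let f : Fin 3 → ZMod 2 := fun a => ∑ z ∈ pr j b, if pos z < pos (t i a) then 1 else 0
    have e : ∀ k, ∑ a, f (a + k) = ∑ a, f a := fun k => Equiv.sum_comp (Equiv.addRight k) f
    have h : ∀ a, c i j a b = f (a + 1) + f (a + 2) := fun a =>
      hpr i a (fun x => ∑ z ∈ pr j b, if pos z < pos x then 1 else 0)
    simp only [h, sum_add_distrib, e]
    exact CharTwo.add_self_eq_zero _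
  have hcs : ∀ i j a b, i ≠ j → c i j a b = c j i b a := by
    intro i j a b hij
    have : c i j a b + c j i b a = 0 := by
      have e : c j i b a = ∑ x ∈ pr i a, ∑ z ∈ pr j b, if pos x < pos z then 1 else 0 := sum_comm
      rw [e]
      simp only [c, ← sum_add_distrib]
      have key : ∀ x ∈ pr i a, ∀ z ∈ pr j b,
          (if pos z < pos x then (1 : ZMod 2) else 0) + (if pos x < pos z then 1 else 0) = 1 := by
        intro x hx z hz
        simp only [pr, mem_image] at hx hz
        obtain ⟨u, -, rfl⟩ := hx; obtain ⟨v, -, rfl⟩ := hz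
        have : pos (t i u) ≠ pos (t j v) := fun h => hij (htne _ _ _ _ (hpos h)).1
        split_ifs <;> first | omega | simp
      rw [sum_congr rfl (fun x hx => sum_congr rfl (key x hx))]
      simp only [hpr]; decide
    rw [add_eq_zero_iff_eq_neg] at this
    simpa [ZMod.neg_eq_self_mod_two] using this
  let c' : Fin r → Fin r → Fin 3 → Fin 3 → ZMod 2 := fun i j a b => if i = j then 0 else c i j a b
  have hs' : ∀ i j a b, c' i j a b = c' j i b a := by
    intro i j a b
    by_cases h : i = j
    · subst h; simp [c']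
    · simp only [c', if_neg h, if_neg (Ne.symm h)]; exact hcs i j a b h
  have key := tri_parity c' hs' (fun i j b h => by simp only [c', if_neg h]; exact hc0 i j b h)
  rw [← key]
  refine sum_congr rfl (fun d _ => ?_)
  -- the indicator as a product
  have hB : E \ Ad d = univ.biUnion (fun i => pr i (d i)) := by
    ext x; simp only [mem_sdiff, mem_biUnion, mem_univ, true_and, pr, mem_image, mem_erase, and_true]
    constructor
    · rintro ⟨hx, hnx⟩
      by_cases hc : M x < r
      · obtain ⟨i, a, rfl⟩ := honto x hx hc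
        exact ⟨i, a, fun h => hnx ((hmemAd d i a).2 h), rfl⟩
      · exact absurd (by simp [Ad, hx, Nat.le_of_not_lt hc]) hnx
    · rintro ⟨i, a, ha, rfl⟩
      exact ⟨(htmem i a).1, fun h => ha ((hmemAd d i a).1 h)⟩
  have hdisj : (↑(univ : Finset (Fin r)) : Set (Fin r)).PairwiseDisjoint (fun i => pr i (d i)) := by
    intro i _ j _ hij
    simp only [Function.onFun, disjoint_left, pr, mem_image]
    rintro x ⟨u, -, rfl⟩ ⟨v, -, h⟩
    exact hij (htne _ _ _ _ h).1.symm
  let rk : Z → ℕ := fun x => ((E \ Ad d).filter (fun z => pos z < pos x)).card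
  have hrk : ∀ i, ((rk (t i (d i + 1)) + rk (t i (d i + 2)) : ℕ) : ZMod 2)
      = 1 + ∑ j ∈ univ.erase i, c' i j (d i) (d j) := by
    intro i
    simp only [rk, card_filter, Nat.cast_add, Nat.cast_sum, Nat.cast_ite, Nat.cast_one, Nat.cast_zero,
      hB, sum_biUnion hdisj, ← sum_add_distrib]
    rw [← add_sum_erase _ _ (mem_univ i)]
    congr 1
    · rw [hpr]
      have : pos (t i (d i + 1)) ≠ pos (t i (d i + 2)) := fun h => by
        have := (htne _ _ _ _ (hpos h)).2
        revert this; generalize d i = a; revert a; decide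
      split_ifs <;> first | omega | decide
    · refine sum_congr rfl (fun j hj => ?_)
      simp only [c', if_neg (ne_of_mem_erase hj).symm, c, hpr]
      ring
  have hcond : Cond pos M E (Ad d) ↔
      ∀ i, (Even (rk (t i (d i + 1))) ↔ ¬ Even (rk (t i (d i + 2)))) := by
    have hev : ∀ x ∈ E \ Ad d, (x ∈ evs pos (E \ Ad d) ↔ Even (rk x)) := by
      intro x hx; simp [evs, rk, hx]
    have hin : ∀ i (a : Fin 3), a ≠ d i → t i a ∈ E \ Ad d := fun i a ha =>
      mem_sdiff.2 ⟨(htmem i a).1, fun h => ha ((hmemAd d i a).1 h)⟩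
    have hne : ∀ a : Fin 3, a + 1 ≠ a ∧ a + 2 ≠ a ∧ a + 1 ≠ a + 2 := by decide
    have hcases : ∀ a b : Fin 3, b ≠ a → b = a + 1 ∨ b = a + 2 := by decide
    constructor
    · rintro ⟨-, he, ho⟩ i
      have m1 := hin i _ (hne (d i)).1
      have m2 := hin i _ (hne (d i)).2.1
      have hM : M (t i (d i + 1)) = M (t i (d i + 2)) := (htmem _ _).2.trans (htmem _ _).2.symm
      have hdne : t i (d i + 1) ≠ t i (d i + 2) := fun h => (hne (d i)).2.2 (ht i h)
      constructor
      · intro h1 h2'
        exact hdne (injOn_pair he (mem_coe.2 ((hev _ m1).2 h1)) (mem_coe.2 ((hev _ m2).2 h2')) hM)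
      · intro h2'
        by_contra h1
        exact hdne (injOn_pair ho (mem_coe.2 (mem_sdiff.2 ⟨m1, fun h => h1 ((hev _ m1).1 h)⟩))
          (mem_coe.2 (mem_sdiff.2 ⟨m2, fun h => h2' ((hev _ m2).1 h)⟩)) hM)
    · intro H
      have pairs : ∀ x ∈ E \ Ad d, ∀ y ∈ E \ Ad d, M x = M y → x ≠ y → (Even (rk x) ↔ ¬ Even (rk y)) := by
        intro x hx y hy hM hxy
        rw [hB] at hx hy
        simp only [mem_biUnion, mem_univ, true_and, pr, mem_image, mem_erase, and_true] at hx hy
        obtain ⟨i, a, ha, rfl⟩ := hx
        obtain ⟨j, b, hb, rfl⟩ := hy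
        have : i = j := Fin.ext (by rw [← (htmem i a).2, ← (htmem j b).2, hM])
        subst this
        rcases hcases _ _ ha with rfl | rfl <;> rcases hcases _ _ hb with rfl | rfl
        · exact absurd rfl hxy
        · exact H i
        · have := H i; tauto
        · exact absurd rfl hxy
      refine ⟨hAdinj d, ?_, ?_⟩
      · intro x hx y hy hM
        by_contra hxy
        rw [mem_coe] at hx hy
        have hx' := evs_subset _ _ hx; have hy' := evs_subset _ _ hy
        exact ((pairs x hx' y hy' hM hxy).1 ((hev x hx').1 hx)) ((hev y hy').1 hy)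
      · intro x hx y hy hM
        by_contra hxy
        rw [mem_coe, mem_sdiff] at hx hy
        have := pairs x hx.1 y hy.1 hM hxy
        have a1 := mt (hev x hx.1).2 hx.2
        have a2 := mt (hev y hy.1).2 hy.2
        tauto
  calc ((if Cond pos M E (Ad d) then 1 else 0 : ℕ) : ZMod 2)
      = ∏ i, (if (Even (rk (t i (d i + 1))) ↔ ¬ Even (rk (t i (d i + 2)))) then (1 : ZMod 2) else 0) := by
        rw [Finset.prod_boole]
        by_cases h : Cond pos M E (Ad d)
        · rw [if_pos h, if_pos (fun i _ => hcond.1 h i)]; simp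
        · rw [if_neg h, if_neg (fun H => h (hcond.2 (fun i => H i (mem_univ i))))]; simp
    _ = _ := prod_congr rfl (fun i _ => by
        rw [← hrk i, Nat.cast_add, zmod2_even, zmod2_even]
        split_ifs <;> first | tauto | decide)

end Vale.Agent.P197
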