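import Mathlib

/-!
Area bound for partitions inside the `(m-1) × (m-1)` box: a partition of `m (m+1) / 2` with both
sides shorter than `m` repeats a large column length or a large row length.
-/

namespace Vale.Agent.P197

theorem area_le_of_no_repeat {h : ℕ → ℕ} {m a : ℕ} (hh : Antitone h)
    (hf : ¬ ∃ c d, 1 ≤ c ∧ c < d ∧ d < a ∧ h c = h d ∧ 2 * m ≤ h 0 + 2 * h c + 1) :
    ∀ v, 1 ≤ v → v < a → h v ≤ max ((2 * m - 2 - h 0) / 2) (h 0 + 1 - v) := by
  intro v h1 hva
  induction v, h1 using Nat.le_induction with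
  | base =>
    have := hh (Nat.zero_le 1)
    omega
  | succ v hv ih =>
    have hdec := hh (Nat.le_succ v)
    have hih := ih (by omega)
    by_cases hP : h (v + 1) ≤ (2 * m - 2 - h 0) / 2
    · exact le_max_of_le_left hP
    · have hne : h v ≠ h (v + 1) := by
        intro he
        exact hf ⟨v, v + 1, hv, by omega, hva, he, by omega⟩
      simp only [Nat.succ_eq_add_one] at hdec
      omega

theorem two_sum_tri_le : ∀ q d : ℕ, 2 * ∑ v ∈ Finset.range q, (d - v) ≤ d * (d + 1)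
  | 0, d => by simp
  | q + 1, 0 => by simp
  | q + 1, d + 1 => by
    have := two_sum_tri_le q d
    rw [Finset.sum_range_succ']
    simp only [Nat.add_sub_add_right, Nat.sub_zero]
    nlinarith

theorem two_sum_clip : ∀ q d : ℕ, q ≤ d →
    2 * (∑ v ∈ Finset.range q, (d - v)) + q * q = 2 * q * d + q
  | 0, d, _ => by simp
  | q + 1, 0, h => by omega
  | q + 1, d + 1, h => by
    have := two_sum_clip q d (by omega)
    rw [Finset.sum_range_succ']
    simp only [Nat.add_sub_add_right, Nat.sub_zero]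
    nlinarith

theorem two_sum_tail : ∀ k : ℕ,
    2 * (∑ j ∈ Finset.range k, (k + 1 - j)) + 2 = (k + 1) * (k + 2)
  | 0 => by simp
  | k + 1 => by
    have := two_sum_tail k
    rw [Finset.sum_range_succ']
    simp only [Nat.add_sub_add_right, Nat.sub_zero]
    nlinarith

/-- The arithmetic at the generic corner: `x, y` are the distances to the box, `r, s` parities. -/
theorem area_corner (m x y r s : ℤ) (hm : 3 ≤ m) (hx : 0 ≤ x) (hy : 0 ≤ y) (hr : 0 ≤ r)
    (hr1 : r ≤ 1) (hs : 0 ≤ s) (hs1 : s ≤ 1) (hX : 3 * x ≤ m - 1 + r) (hY : 3 * y ≤ m - 1 + s)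
    (hne : 1 ≤ x + y ∨ r = 0 ∧ s = 0) :
    2 * (m - 1 + x - r) * (m - 1 + y - s) + (m + 1 - 3 * x + r) * (m + 1 - 3 * x + r)
        + 2 * (m + 1 - 3 * x + r) + (m + 1 - 3 * y + s) * (m + 1 - 3 * y + s)
        + 2 * (m + 1 - 3 * y + s) - 16
      < 4 * (m * (m + 1)) := by
  rcases hne with hne | ⟨rfl, rfl⟩
  · nlinarith [mul_nonneg hx (sub_nonneg.2 hX), mul_nonneg hy (sub_nonneg.2 hY),
      mul_nonneg hx hr, mul_nonneg hy hs, mul_nonneg hx (sub_nonneg.2 hr1),
      mul_nonneg hy (sub_nonneg.2 hs1), mul_nonneg hr (sub_nonneg.2 hr1),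
      mul_nonneg hs (sub_nonneg.2 hs1), mul_nonneg hx hy, mul_nonneg hr hs,
      mul_nonneg (sub_nonneg.2 hm) (sub_nonneg.2 hne), mul_nonneg hx hs, mul_nonneg hy hr,
      mul_nonneg (sub_nonneg.2 hX) (sub_nonneg.2 hY)]
  · nlinarith [mul_nonneg hx (sub_nonneg.2 hX), mul_nonneg hy (sub_nonneg.2 hY),
      mul_nonneg hx hy]

/-- The arithmetic when one clipped value is the whole side. -/
theorem area_side (m l q k : ℤ) (hm : 3 ≤ m) (_hl : 0 ≤ l) (hl' : 3 * l + 2 ≤ 2 * m) (hq : 0 ≤ q)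
    (hk : 0 ≤ k) (h1 : 3 * q + k + 2 ≤ 2 * m) (hk2 : 2 * k ≤ m) :
    2 * (q * l) + 2 + (k + 1) * (k + 2) < m * (m + 1) + 4 := by
  nlinarith [mul_nonneg hq (sub_nonneg.2 hl'),
    mul_nonneg (show (0 : ℤ) ≤ 2 * m - 2 by omega) (sub_nonneg.2 h1),
    mul_nonneg hk (sub_nonneg.2 hk2), mul_nonneg (show (0 : ℤ) ≤ m by omega) (sub_nonneg.2 hk2),
    mul_nonneg hk (show (0 : ℤ) ≤ m - 3 by omega), mul_le_mul hm hm (by norm_num) (by omega)]

theorem area_arith (m l a p q d k : ℕ) (hm : 3 ≤ m) (hl : l < m) (ha : a < m)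
    (hp : p = min ((2 * m - 2 - l) / 2) l) (hq : q = min ((2 * m - 2 - a) / 2) a)
    (hd : l + 1 = p + d) (hk : a = q + k) (hne : ¬(l + 1 = m ∧ a + 1 = m ∧ m % 2 = 0)) :
    2 * (q * p) + d * (d + 1) + (k + 1) * (k + 2) < m * (m + 1) + 4 := by
  zify
  rcases Nat.lt_or_ge p l with hpl | hpl <;> rcases Nat.lt_or_ge q a with hqa | hqa
  · obtain ⟨r, hr⟩ : ∃ r : ℤ, 2 * (p : ℤ) + r + l + 2 = 2 * m := ⟨2 * m - 2 - l - 2 * p, by ring⟩
    obtain ⟨s, hs⟩ : ∃ s : ℤ, 2 * (q : ℤ) + s + a + 2 = 2 * m := ⟨2 * m - 2 - a - 2 * q, by ring⟩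
    have hz := area_corner (m : ℤ) (m - 1 - l) (m - 1 - a) r s (by omega) (by omega)
      (by omega) (by omega) (by omega) (by omega) (by omega) (by omega) (by omega) (by omega)
    rw [show (m : ℤ) - 1 + (m - 1 - l) - r = 2 * p by omega,
      show (m : ℤ) - 1 + (m - 1 - a) - s = 2 * q by omega,
      show (m : ℤ) + 1 - 3 * (m - 1 - l) + r = 2 * d by omega,
      show (m : ℤ) + 1 - 3 * (m - 1 - a) + s = 2 * (k + 1) by omega] at hz
    linarith
  · rw [show (k : ℤ) = 0 by omega]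
    have := area_side (m : ℤ) q p (d - 1) (by omega) (by omega) (by omega) (by omega) (by omega)
      (by omega) (by omega)
    linarith
  · rw [show (d : ℤ) = 1 by omega]
    have := area_side (m : ℤ) p q k (by omega) (by omega) (by omega) (by omega) (by omega)
      (by omega) (by omega)
    linarith
  · rw [show (k : ℤ) = 0 by omega, show (d : ℤ) = 1 by omega]
    have h1 : (q : ℤ) * (3 * p + 2) ≤ q * (2 * m) :=
      mul_le_mul_of_nonneg_left (by omega) (by omega)
    have h2 : (3 * q + 2 : ℤ) * (2 * m) ≤ 2 * m * (2 * m) :=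
      mul_le_mul_of_nonneg_right (by omega) (by omega)
    have h3 : (3 : ℤ) * m ≤ m * m := mul_le_mul_of_nonneg_right (by omega) (by omega)
    linarith

/-- A partition of `m (m+1) / 2` inside the `(m-1) × (m-1)` box, given by its column lengths `h`
and row lengths `g`, repeats a large column length or a large row length. -/
theorem box_repeat (m : ℕ) (h g : ℕ → ℕ) (hh : Antitone h) (hg : Antitone g)
    (hc : ∀ i v, i < h v ↔ v < g i) (hl : h 0 < m) (ha : g 0 < m)
    (hsum : 2 * ∑ v ∈ Finset.range (g 0), h v = m * (m + 1)) :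
    (∃ c d, 1 ≤ c ∧ c < d ∧ d < g 0 ∧ h c = h d ∧ 2 * m ≤ h 0 + 2 * h c + 1) ∨
      (∃ c d, 1 ≤ c ∧ c < d ∧ d < h 0 ∧ g c = g d ∧ 2 * m ≤ g 0 + 2 * g c + 1) := by
  by_contra hcon
  rw [not_or] at hcon
  have B1 := area_le_of_no_repeat hh hcon.1
  have B2 := area_le_of_no_repeat hg hcon.2
  set l := h 0 with hldef
  set a := g 0 with hadef
  have hle : ∀ v, h v ≤ l := fun v => hh (Nat.zero_le v)
  rcases Nat.lt_or_ge m 3 with hm | hm
  · have h1 : ∑ v ∈ Finset.range a, h v ≤ a * l := by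
      have := Finset.sum_le_card_nsmul (Finset.range a) h l fun v _ => hle v
      simpa using this
    have h2 : a * l ≤ (m - 1) * (m - 1) := Nat.mul_le_mul (by omega) (by omega)
    interval_cases m <;> omega
  obtain ⟨P, hPdef⟩ : ∃ P, P = (2 * m - 2 - l) / 2 := ⟨_, rfl⟩
  obtain ⟨Q, hQdef⟩ : ∃ Q, Q = (2 * m - 2 - a) / 2 := ⟨_, rfl⟩
  obtain ⟨p, hp⟩ : ∃ p, p = min P l := ⟨_, rfl⟩
  obtain ⟨q, hq⟩ : ∃ q, q = min Q a := ⟨_, rfl⟩
  have ha1 : 1 ≤ a := by
    by_contra h0
    rw [show a = 0 by omega, Finset.range_zero, Finset.sum_empty] at hsum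
    nlinarith
  have hq1 : 1 ≤ q := by omega
  obtain ⟨k, hk⟩ : ∃ k, a = q + k := ⟨a - q, by omega⟩
  have hhead : ∑ v ∈ Finset.range q, h v + 1
      ≤ q * p + ∑ v ∈ Finset.range q, (l + 1 - p - v) := by
    obtain ⟨q', rfl⟩ : ∃ q', q = q' + 1 := ⟨q - 1, by omega⟩
    have hb : ∀ v ∈ Finset.range q', h (v + 1) ≤ p + (l + 1 - p - (v + 1)) := by
      intro v hv
      have := Finset.mem_range.1 hv
      have := B1 (v + 1) (by omega) (by omega)
      have := hle (v + 1)
      omega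
    have := Finset.sum_le_sum hb
    rw [Finset.sum_add_distrib] at this
    simp only [Finset.sum_const, Finset.card_range, smul_eq_mul] at this
    rw [Finset.sum_range_succ', Finset.sum_range_succ' (fun v => l + 1 - p - v)]
    simp only [Nat.sub_zero]
    rw [← hldef, add_mul, one_mul]
    omega
  have htail : ∑ v ∈ Finset.Ico q a, h v ≤ ∑ j ∈ Finset.range k, (k + 1 - j) := by
    rw [Finset.sum_Ico_eq_sum_range, show a - q = k by omega]
    refine Finset.sum_le_sum fun j hj => ?_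
    have := Finset.mem_range.1 hj
    by_contra hbig
    have h1 : k + 1 - j < h (q + j) := by omega
    have h2 := (hc (k + 1 - j) (q + j)).1 h1
    have h3 := B2 (k + 1 - j) (by omega) (by
      have := hle (q + j)
      omega)
    omega
  have hsplit : ∑ v ∈ Finset.range a, h v
      = ∑ v ∈ Finset.range q, h v + ∑ v ∈ Finset.Ico q a, h v :=
    (Finset.sum_range_add_sum_Ico _ (by omega)).symm
  have htail2 := two_sum_tail k
  have key : ¬ (m * (m + 1) + 2 + 2 ≤
      2 * (q * p) + 2 * (∑ v ∈ Finset.range q, (l + 1 - p - v)) + (k + 1) * (k + 2)) := by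
    intro hK
    obtain ⟨d, hd⟩ : ∃ d, l + 1 = p + d := ⟨l + 1 - p, by omega⟩
    rw [show l + 1 - p = d by omega] at hK
    by_cases hex : l + 1 = m ∧ a + 1 = m ∧ m % 2 = 0
    · have hT := two_sum_clip q d (by omega)
      obtain ⟨h1, h2, h3⟩ := hex
      obtain ⟨w, hw⟩ : ∃ w, m = 2 * w + 2 := ⟨m / 2 - 1, by omega⟩
      have ep : p = w := by omega
      have eq' : q = w := by omega
      have ed : d = w + 2 := by omega
      have ek : k = w + 1 := by omega
      rw [ep, eq', ed, ek, hw] at hK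
      rw [eq', ed] at hT
      nlinarith
    · have hT := two_sum_tri_le q d
      have := area_arith m l a p q d k hm hl ha (by omega) (by omega) hd hk hex
      omega
  exact key (by omega)

end Vale.Agent.P197
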