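import Vale.Agent.P197.Hist
import Vale.Agent.P197.Alt

/-!
# Sums over interleaved splittings of a set of points
-/

namespace Vale.Agent.P197

open Finset

set_option linter.unusedSectionVars false

variable {Z : Type*} [Fintype Z] [DecidableEq Z]

/-- Colour `A` by `c0` and the rest of `E` alternately by `c2` and `c3`. -/
def colA (pos : Z → ℕ) (base : Z → ℕ) (E : Finset Z) (c0 c2 c3 : ℕ) (A : Finset Z) (x : Z) : ℕ :=
  if x ∈ A then c0 else if x ∈ evs pos (E \ A) then c2 else if x ∈ E then c3 else base x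

/-- Points outside `E` are separated. -/
def Oth (base M : Z → ℕ) (E : Finset Z) : Prop :=
  ∀ x y, x ∉ E → y ∉ E → base x = base y → M x = M y → x = y

/-- The label content of `E`. -/
def Cont (M : Z → ℕ) (E : Finset Z) (r l : ℕ) : Prop :=
  ∀ i, (E.filter (fun x => M x = i)).card = if i < r then 3 else if i < l then 1 else 0

variable (pos : Z → ℕ) (base : Z → ℕ) (c0 c2 c3 r l : ℕ)

theorem hist_colA (hpos : Function.Injective pos) (h02 : c0 ≠ c2) (h03 : c0 ≠ c3) (h23 : c2 ≠ c3)
    (hb : ∀ x, base x ≠ c2 ∧ base x ≠ c3)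
    (E : Finset Z) (hE : E = univ.filter (fun x => base x = c0)) (hEc : E.card = l + 2 * r)
    (A : Finset Z) (hA : A ∈ powersetCard l E) (c : ℕ) :
    sz (colA pos base E c0 c2 c3 A) c
      = if c = c0 then l else if c = c2 ∨ c = c3 then r else sz base c := by
  rw [mem_powersetCard] at hA
  have hsub := evs_subset pos (E \ A)
  have hc2 := card_evs pos hpos (E \ A)
  have hdiff : (E \ A).card = 2 * r := by rw [card_sdiff_of_subset hA.1]; omega
  have hout : ∀ x, x ∉ E → base x ≠ c0 := fun x hx => by simpa [hE] using hx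
  unfold sz
  by_cases a0 : c = c0
  · subst a0
    rw [if_pos rfl, show univ.filter (fun x => colA pos base E c c2 c3 A x = c) = A from ?_, hA.2]
    ext x; rw [mem_filter_univ]; simp only [colA]
    by_cases q1 : x ∈ A
    · simp [q1]
    · by_cases q2 : x ∈ evs pos (E \ A)
      · simp [q1, q2, h02.symm]
      · by_cases q3 : x ∈ E
        · simp [q1, q2, q3, h03.symm]
        · simp [q1, q2, q3, hout x q3]
  rw [if_neg a0]
  by_cases a2 : c = c2
  · subst a2
    rw [if_pos (Or.inl rfl), show univ.filter (fun x => colA pos base E c0 c c3 A x = c)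
      = evs pos (E \ A) from ?_, hc2, hdiff]
    · omega
    ext x; rw [mem_filter_univ]; simp only [colA]
    by_cases q1 : x ∈ A
    · have : x ∉ evs pos (E \ A) := fun h => (mem_sdiff.1 (hsub h)).2 q1
      simp [q1, this, h02]
    · by_cases q2 : x ∈ evs pos (E \ A)
      · simp [q1, q2]
      · by_cases q3 : x ∈ E
        · simp [q1, q2, q3, h23.symm]
        · simp [q1, q2, q3, (hb x).1]
  by_cases a3 : c = c3
  · subst a3
    rw [if_pos (Or.inr rfl), show univ.filter (fun x => colA pos base E c0 c2 c A x = c)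
      = (E \ A) \ evs pos (E \ A) from ?_, card_sdiff_of_subset hsub, hc2, hdiff]
    · omega
    ext x; rw [mem_filter_univ]; simp only [colA, mem_sdiff]
    by_cases q1 : x ∈ A
    · simp [q1, h03]
    · by_cases q2 : x ∈ evs pos (E \ A)
      · simp [q1, q2, h23]
      · by_cases q3 : x ∈ E
        · simp [q1, q2, q3]
        · simp [q1, q2, q3, (hb x).2]
  rw [if_neg (by omega)]
  congr 1
  ext x; rw [mem_filter_univ]; simp only [colA]
  by_cases q3 : x ∈ E
  · have hb0 : base x = c0 := by simpa [hE] using q3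
    simp only [hb0, mem_filter_univ]
    split_ifs <;> omega
  · have q1 : x ∉ A := fun h => q3 (hA.1 h)
    have q2 : x ∉ evs pos (E \ A) := fun h => q3 (mem_sdiff.1 (hsub h)).1
    simp [q1, q2, q3]

theorem pair_colA (h02 : c0 ≠ c2) (h03 : c0 ≠ c3) (h23 : c2 ≠ c3)
    (hb : ∀ x, base x ≠ c2 ∧ base x ≠ c3)
    (E : Finset Z) (hE : E = univ.filter (fun x => base x = c0))
    (A : Finset Z) (hA : A ∈ powersetCard l E) (M : Z → ℕ) :
    Pair (colA pos base E c0 c2 c3 A) M ↔ Oth base M E ∧ Cond pos M E A := by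
  rw [mem_powersetCard] at hA
  have hsub := evs_subset pos (E \ A)
  have hout : ∀ x, x ∉ E → x ∉ A ∧ x ∉ evs pos (E \ A) := fun x hx =>
    ⟨fun h => hx (hA.1 h), fun h => hx (mem_sdiff.1 (hsub h)).1⟩
  have cls : ∀ x, (x ∈ A ∧ colA pos base E c0 c2 c3 A x = c0) ∨
      (x ∈ evs pos (E \ A) ∧ colA pos base E c0 c2 c3 A x = c2) ∨
      (x ∈ (E \ A) \ evs pos (E \ A) ∧ colA pos base E c0 c2 c3 A x = c3) ∨
      (x ∉ E ∧ colA pos base E c0 c2 c3 A x = base x) := by
    intro x
    unfold colA
    by_cases q1 : x ∈ A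
    · simp [q1]
    · by_cases q2 : x ∈ evs pos (E \ A)
      · simp [q1, q2]
      · by_cases q3 : x ∈ E
        · simp [q1, q2, q3]
        · simp [q1, q2, q3]
  constructor
  · intro hp
    refine ⟨fun x y hx hy a b => hp x y ?_ b, ?_, ?_, ?_⟩
    · simp [colA, hout x hx, hout y hy, hx, hy, a]
    · intro x hx y hy b; rw [mem_coe] at hx hy; exact hp x y (by simp [colA, hx, hy]) b
    · intro x hx y hy b
      rw [mem_coe] at hx hy
      have x1 := (mem_sdiff.1 (hsub hx)).2
      have y1 := (mem_sdiff.1 (hsub hy)).2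
      exact hp x y (by simp [colA, hx, hy, x1, y1]) b
    · intro x hx y hy b
      rw [mem_coe, mem_sdiff, mem_sdiff] at hx hy
      exact hp x y (by simp [colA, hx.1.1, hx.1.2, hx.2, hy.1.1, hy.1.2, hy.2]) b
  · rintro ⟨ho, ca, ce, cd⟩ x y a b
    have h0 : ∀ z, z ∉ E → base z ≠ c0 := fun z hz => by simpa [hE] using hz
    rcases cls x with ⟨px, ex⟩ | ⟨px, ex⟩ | ⟨px, ex⟩ | ⟨px, ex⟩ <;>
      rcases cls y with ⟨py, ey⟩ | ⟨py, ey⟩ | ⟨py, ey⟩ | ⟨py, ey⟩ <;> rw [ex, ey] at a
    · exact ca (mem_coe.2 px) (mem_coe.2 py) b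
    · exact absurd a h02
    · exact absurd a h03
    · exact absurd a.symm (h0 y py)
    · exact absurd a.symm h02
    · exact ce (mem_coe.2 px) (mem_coe.2 py) b
    · exact absurd a h23
    · exact absurd a.symm (hb y).1
    · exact absurd a.symm h03
    · exact absurd a.symm h23
    · exact cd (mem_coe.2 px) (mem_coe.2 py) b
    · exact absurd a.symm (hb y).2
    · exact absurd a (h0 x px)
    · exact absurd a (hb x).1
    · exact absurd a (hb x).2
    · exact ho x y px py a b

/-- The sum over all splittings is the indicator of separation outside and of the content. -/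
theorem sum_colA (hpos : Function.Injective pos) (h02 : c0 ≠ c2) (h03 : c0 ≠ c3) (h23 : c2 ≠ c3)
    (hb : ∀ x, base x ≠ c2 ∧ base x ≠ c3)
    (E : Finset Z) (hE : E = univ.filter (fun x => base x = c0)) (hEc : E.card = l + 2 * r)
    (hrl : r ≤ l) (M : Z → ℕ)
    (hM : ∀ A ∈ powersetCard l E, ∀ i, sz M i = cj (colA pos base E c0 c2 c3 A) i)
    [Decidable (Oth base M E ∧ Cont M E r l)] :
    ∑ A ∈ powersetCard l E, (if Pair (colA pos base E c0 c2 c3 A) M then (1 : ZMod 2) else 0)
      = if Oth base M E ∧ Cont M E r l then 1 else 0 := by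
  classical
  by_cases hC : Cont M E r l
  · have key := interleave_parity pos hpos E M r l hrl hC
    by_cases ho : Oth base M E
    · rw [if_pos ⟨ho, hC⟩]
      refine Eq.trans ?_ key
      rw [card_filter, Nat.cast_sum]
      refine sum_congr rfl (fun A hA => ?_)
      simp only [pair_colA pos base c0 c2 c3 l h02 h03 h23 hb E hE A hA M, ho, true_and]
      split_ifs <;> simp
    · rw [if_neg (fun h => ho h.1)]
      exact sum_eq_zero (fun A hA => if_neg
        (fun h => ho ((pair_colA pos base c0 c2 c3 l h02 h03 h23 hb E hE A hA M).1 h).1))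
  · rw [if_neg (fun h => hC h.2)]
    refine sum_eq_zero (fun A hA => if_neg (fun hp => hC (fun i => ?_)))
    have hh := label_hit (hM A hA) hp
    have hsz := hist_colA pos base c0 c2 c3 r l hpos h02 h03 h23 hb E hE hEc A hA
    have hA' := mem_powersetCard.1 hA
    have hsub := evs_subset pos (E \ A)
    set col := colA pos base E c0 c2 c3 A with hcol
    have hmem : ∀ x, x ∈ E ↔ (col x = c0 ∨ col x = c2 ∨ col x = c3) := by
      intro x
      simp only [hcol, colA]
      by_cases q3 : x ∈ E
      · simp only [q3, true_iff]; split_ifs <;> simp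
      · have q1 : x ∉ A := fun h => q3 (hA'.1 h)
        have q2 : x ∉ evs pos (E \ A) := fun h => q3 (mem_sdiff.1 (hsub h)).1
        have h0 : base x ≠ c0 := by simpa [hE] using q3
        simp [q1, q2, q3, hb x, h0]
    have hsplit : E.filter (fun x => M x = i) = univ.filter (fun x => col x = c0 ∧ M x = i) ∪
        (univ.filter (fun x => col x = c2 ∧ M x = i) ∪ univ.filter (fun x => col x = c3 ∧ M x = i)) := by
      ext x; simp only [mem_filter, mem_union, mem_univ, true_and, hmem x]; tauto
    rw [hsplit, card_union_of_disjoint, card_union_of_disjoint, hh, hh, hh, hsz, hsz, hsz]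
    · simp only [if_neg h02.symm, if_neg h03.symm, true_or, or_true, if_true]
      split_ifs <;> omega
    · simp [disjoint_left]; intros; omega
    · simp [disjoint_left]; intros; omega

end Vale.Agent.P197
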