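import Vale.Agent.P197.Step
import Vale.Agent.P197.Split

/-!
# The step for two equal fibres next to a third one
-/

namespace Vale.Agent.P197

open Finset

set_option linter.unusedSectionVars false

/-- Put the colour `c0` on the first two rows. -/
def ext2 {m : ℕ} (c0 : ℕ) (colY : Cell m → ℕ) : Cell (m + 2) → ℕ :=
  Sum.elim (fun _ => c0) (Sum.elim (fun _ => c0) colY ∘ rowSplit m) ∘ rowSplit (m + 1)

theorem ext2_top {m : ℕ} (c0 : ℕ) (colY : Cell m → ℕ) (s : Fin (m + 2)) :
    ext2 c0 colY (topCell s) = c0 := by simp [ext2, topCell]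

theorem ext2_low_top {m : ℕ} (c0 : ℕ) (colY : Cell m → ℕ) (s : Fin (m + 1)) :
    ext2 c0 colY (lowCell (topCell s)) = c0 := by simp [ext2, topCell, lowCell]

theorem ext2_low_low {m : ℕ} (c0 : ℕ) (colY : Cell m → ℕ) (y : Cell m) :
    ext2 c0 colY (lowCell (lowCell y)) = colY y := by simp [ext2, lowCell]

theorem sz_ext2 {m : ℕ} (c0 : ℕ) (colY : Cell m → ℕ) (c : ℕ) :
    sz (ext2 c0 colY) c = (if c = c0 then 2 * m + 3 else 0) + sz colY c := by
  unfold ext2
  rw [sz_equiv, sz_elim, sz_equiv, sz_elim]
  by_cases h : c = c0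
  · subst h; simp [sz]; omega
  · simp [sz, Ne.symm h, h]

/-- Label content of three fibres of sizes `l`, `r`, `r`. -/
def tri3 (r l i : ℕ) : ℕ := if i < r then 3 else if i < l then 1 else 0

/-- Histogram identity for the merged fibres. -/
theorem hist_box {X Y : Type*} [Fintype X] [DecidableEq X] [Fintype Y] [DecidableEq Y]
    (col : X → ℕ) (colY : Y → ℕ) (c0 c2 c3 r l R : ℕ) (h02 : c0 ≠ c2) (h03 : c0 ≠ c3)
    (h23 : c2 ≠ c3) (hl : sz col c0 = l) (h2 : sz col c2 = r) (h3 : sz col c3 = r)
    (hrl : r ≤ l) (hRl : R ≤ l)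
    (hsY : ∀ c, sz colY c = if c = c0 then R else if c = c2 ∨ c = c3 then 0 else sz col c)
    (t i : ℕ) (ht : t + (if i < R then 1 else 0) = tri3 r l i) :
    cj col i = cj colY i + t := by
  classical
  let S := insert c0 (insert c2 (insert c3 (univ.image col)))
  have hS : ∀ c, 0 < sz col c → c ∈ S := fun c hc => by
    simp only [S, mem_insert]; exact Or.inr (Or.inr (Or.inr (sz_pos_iff.1 hc)))
  have hS' : ∀ c, 0 < sz colY c → c ∈ S := by
    intro c hc
    rw [hsY] at hc
    split_ifs at hc with a b
    · simp [S, a]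
    · omega
    · exact hS c hc
  rw [cj_eq col S hS, cj_eq colY S hS', card_filter, card_filter]
  have key : ∀ c ∈ S, (if i < sz col c then 1 else 0 : ℕ)
      + (if c = c0 then (if i < R then 1 else 0) else 0)
      = (if i < sz colY c then 1 else 0) + ((if c = c0 then (if i < l then 1 else 0) else 0)
        + ((if c = c2 then (if i < r then 1 else 0) else 0)
        + (if c = c3 then (if i < r then 1 else 0) else 0))) := by
    intro c _
    rw [hsY]
    by_cases a : c = c0
    · subst a; simp [h02, h03, hl]; omega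
    · by_cases b : c = c2
      · subst b; simp [a, h23, h2]
      · by_cases d : c = c3
        · subst d; simp [a, b, h3]
        · simp [a, b, d]
  have h := sum_congr rfl key
  simp only [sum_add_distrib, sum_ite_eq'] at h
  have hm : c0 ∈ S ∧ c2 ∈ S ∧ c3 ∈ S := by simp [S]
  simp only [hm, if_true] at h
  simp only [tri3] at ht
  split_ifs at * <;> omega

/-- After two peelings the summed indicator is the indicator for the smaller colouring. -/
theorem box_value {m : ℕ} (c0 r l R : ℕ) (colY k : Cell m → ℕ) (tf : Fin (m + 2) → ℕ)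
    (tg : Fin (m + 1) → ℕ) (hR : sz colY c0 = R)
    (hk : ∀ i, sz k i = cj colY i)
    (ht : ∀ i, sz tf i + sz tg i + (if i < R then 1 else 0) = tri3 r l i) :
    (Oth (ext2 c0 colY) (Sum.elim tf (Sum.elim tg k ∘ rowSplit m) ∘ rowSplit (m + 1))
        (univ.filter (fun x => ext2 c0 colY x = c0)) ∧
      Cont (Sum.elim tf (Sum.elim tg k ∘ rowSplit m) ∘ rowSplit (m + 1))
        (univ.filter (fun x => ext2 c0 colY x = c0)) r l) ↔ Pair colY k := by
  classical
  set M : Cell (m + 2) → ℕ := Sum.elim tf (Sum.elim tg k ∘ rowSplit m) ∘ rowSplit (m + 1) with hMdef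
  set E := univ.filter (fun x : Cell (m + 2) => ext2 c0 colY x = c0) with hE
  have hMy : ∀ y, M (lowCell (lowCell y)) = k y := fun y => by simp [hMdef, lowCell]
  have hcount : ∀ i, (E.filter (fun x => M x = i)).card
      = sz tf i + sz tg i + (univ.filter (fun y => colY y = c0 ∧ k y = i)).card := by
    intro i
    rw [hE, filter_filter]
    unfold sz
    simp only [card_filter]
    rw [← Equiv.sum_comp (rowSplit (m + 1)).symm, Fintype.sum_sum_type,
      ← Equiv.sum_comp (rowSplit m).symm, Fintype.sum_sum_type]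
    simp [hMdef, ext2, add_assoc]
  constructor
  · rintro ⟨ho, hc⟩ x y a b
    by_cases hx : colY x = c0
    · have h := hc (k x)
      rw [hcount] at h
      have h' := ht (k x)
      simp only [tri3] at h'
      have h1 : (univ.filter (fun y => colY y = c0 ∧ k y = k x)).card ≤ 1 := by
        split_ifs at h h' <;> omega
      exact card_le_one.1 h1 x (by simp [hx]) y (by simp [← a, hx, b])
    · have hxE : lowCell (lowCell x) ∉ E := by simp [hE, ext2_low_low, hx]
      have hyE : lowCell (lowCell y) ∉ E := by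
        simp [hE, ext2_low_low]; exact fun h => hx (a.trans h)
      have h := ho _ _ hxE hyE (by rw [ext2_low_low, ext2_low_low]; exact a)
        (by rw [hMy, hMy]; exact b)
      simpa [lowCell] using h
  · intro hp
    refine ⟨fun x y hx hy a b => ?_, fun i => ?_⟩
    · have hout : ∀ x, x ∉ E → ∃ y, x = lowCell (lowCell y) := by
        intro x hx
        rcases top_or_low x with ⟨s, rfl⟩ | ⟨z, rfl⟩
        · exact absurd (by simp [hE, ext2_top]) hx
        rcases top_or_low z with ⟨s, rfl⟩ | ⟨y, rfl⟩
        · exact absurd (by simp [hE, ext2_low_top]) hx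
        exact ⟨y, rfl⟩
      obtain ⟨u, rfl⟩ := hout x hx
      obtain ⟨v, rfl⟩ := hout y hy
      rw [ext2_low_low, ext2_low_low] at a
      rw [hMy, hMy] at b
      rw [hp u v a b]
    · rw [hcount, label_hit hk hp c0 i, hR]
      exact ht i

/-- Step for two equal fibres next to a third one. -/
theorem step_box {m : ℕ} (ih : ∀ col : Cell m → ℕ, Good m col) (col : Cell (m + 2) → ℕ)
    (c0 c2 c3 r : ℕ) (h02 : c0 ≠ c2) (h03 : c0 ≠ c3) (h23 : c2 ≠ c3)
    (h2 : sz col c2 = r) (h3 : sz col c3 = r) (hr : r ≤ sz col c0) (hlm : sz col c0 ≤ m + 1)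
    (hbig : 2 * (m + 2) ≤ sz col c0 + 2 * r + 1) : Good (m + 2) col := by
  classical
  obtain ⟨l, hl⟩ : ∃ l, sz col c0 = l := ⟨_, rfl⟩
  rw [hl] at hr hlm hbig
  set E0 : Finset (Cell (m + 2)) :=
    univ.filter (fun x => col x = c0 ∨ col x = c2 ∨ col x = c3) with hE0
  have hE0card : E0.card = l + 2 * r := by
    have : E0 = univ.filter (fun x => col x = c0) ∪ (univ.filter (fun x => col x = c2)
        ∪ univ.filter (fun x => col x = c3)) := by ext x; simp [hE0]
    rw [this, card_union_of_disjoint, card_union_of_disjoint]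
    · unfold sz at h2 h3 hl; omega
    · simp [disjoint_left]; intro x hx; omega
    · simp [disjoint_left]; intro x hx; omega
  obtain ⟨D, hD, hDcard⟩ := exists_subset_card_eq (s := E0) (n := 2 * m + 3) (by omega)
  let rel : ℕ → ℕ := fun c => if c = c2 ∨ c = c3 then c0 else c
  obtain ⟨col1, h1⟩ := exists_delete (B := Cell m) (rel ∘ col) D (by
    rw [card_cell_succ, card_cell_succ, hDcard]; omega)
  obtain ⟨σ1, L1, hL1, hc1⟩ := ih col1
  set colY := col1 ∘ σ1 with hY
  obtain ⟨R, hR⟩ : ∃ R, R + (2 * m + 3) = l + 2 * r := ⟨l + 2 * r - (2 * m + 3), by omega⟩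
  have hRl : R ≤ l := by omega
  have hrel : ∀ x, (rel (col x) = c0 ↔ x ∈ E0) := by
    intro x; simp only [hE0, mem_filter_univ, rel]; split_ifs <;> omega
  have hsY : ∀ c, sz colY c = if c = c0 then R else if c = c2 ∨ c = c3 then 0 else sz col c := by
    intro c
    have hh := h1 c
    rw [hY, sz_comp]
    split_ifs with a b
    · subst a
      have e1 : sz (rel ∘ col) c = E0.card := by
        unfold sz; congr 1; ext x; simpa using hrel x
      have e2 : D.filter (fun x => (rel ∘ col) x = c) = D :=
        filter_true_of_mem (fun x hx => (hrel x).2 (hD hx))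
      rw [e1, e2] at hh; omega
    · have e1 : sz (rel ∘ col) c = 0 := by
        unfold sz; rw [card_eq_zero, filter_eq_empty_iff]
        intro x _; simp only [Function.comp, rel]; split_ifs <;> omega
      omega
    · have e1 : sz (rel ∘ col) c = sz col c := by
        unfold sz; congr 1; ext x; simp only [mem_filter_univ, Function.comp, rel]
        split_ifs <;> omega
      have e2 : D.filter (fun x => (rel ∘ col) x = c) = ∅ := by
        rw [filter_eq_empty_iff]; intro x hx e; exact a (e ▸ (hrel x).2 (hD hx))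
      rw [e1, e2, card_empty] at hh; omega
  have hLY : ∀ i, sz L1 i = cj colY i := fun i => by
    rw [hL1 i, hY]; exact (cj_congr (sz_comp col1 σ1) i).symm
  obtain ⟨top, htop⟩ := exists_hist (A := Fin (m + 2) ⊕ Fin (m + 1)) (range l)
    (fun i => tri3 r l i - if i < R then 1 else 0) (by
      have e : ∀ i ∈ range l, (tri3 r l i - if i < R then 1 else 0) + (if i < R then 1 else 0)
          = 1 + (if i < r then 2 else 0) := by
        intro i hi; simp only [tri3]; simp at hi; split_ifs <;> omega
      have := sum_congr rfl e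
      rw [sum_add_distrib, sum_add_distrib] at this
      have a1 : ∑ i ∈ range l, (if i < R then 1 else 0) = R := by
        rw [← sum_filter, show (range l).filter (fun i => i < R) = range R by ext; simp; omega]
        simp
      have a2 : ∑ i ∈ range l, (if i < r then 2 else 0) = 2 * r := by
        rw [← sum_filter, show (range l).filter (fun i => i < r) = range r by ext; simp; omega]
        simp; omega
      rw [a1, a2] at this
      simp at this ⊢; omega)
  obtain ⟨tf, tg, rfl⟩ : ∃ tf tg, top = Sum.elim tf tg :=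
    ⟨top ∘ Sum.inl, top ∘ Sum.inr, (Sum.elim_comp_inl_inr top).symm⟩
  have ht : ∀ i, sz tf i + sz tg i + (if i < R then 1 else 0) = tri3 r l i := by
    intro i; rw [← sz_elim, htop]; simp only [tri3, mem_range]; split_ifs <;> omega
  let L : Cell (m + 2) → ℕ :=
    Sum.elim tf (Sum.elim tg L1 ∘ diagSplit m) ∘ diagSplit (m + 1)
  have hL : ∀ i, sz L i = cj col i := by
    intro i
    rw [hist_box col colY c0 c2 c3 r l R h02 h03 h23 hl h2 h3 hr hRl hsY _ i (ht i),
      sz_equiv, sz_elim, sz_equiv, sz_elim, hLY i]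
    omega
  set base := ext2 c0 colY with hbase
  set E := univ.filter (fun x : Cell (m + 2) => base x = c0) with hE
  have hEcard : E.card = l + 2 * r := by
    have := sz_ext2 c0 colY c0
    rw [if_pos rfl, hsY, if_pos rfl] at this
    unfold sz at this
    rw [hE, hbase, this]; omega
  have hb : ∀ x, base x ≠ c2 ∧ base x ≠ c3 := by
    intro x
    have hp := sz_pos base x
    refine ⟨fun e => ?_, fun e => ?_⟩ <;>
    · rw [e, hbase, sz_ext2, hsY] at hp
      simp [h02.symm, h03.symm] at hp
  let pos : Cell (m + 2) → ℕ := fun x => (Fintype.equivFin (Cell (m + 2)) x).val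
  have hpos : Function.Injective pos := fun a b h => (Fintype.equivFin _).injective (Fin.ext h)
  have hA : ∀ A ∈ powersetCard l E, ∀ c, sz (colA pos base E c0 c2 c3 A) c = sz col c := by
    intro A hA c
    rw [hist_colA pos base c0 c2 c3 r l hpos h02 h03 h23 hb E hE hEcard A hA c, hbase, sz_ext2, hsY]
    split_ifs with a b
    · rw [a, hl]
    · rcases b with rfl | rfl
      · exact h2.symm
      · exact h3.symm
    · omega
  let Q : (Cell (m + 2) → ℕ) → Prop := fun M => Oth base M E ∧ Cont M E r l
  let F : (Cell (m + 2) → ℕ) → ZMod 2 := fun M =>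
    ∑ A ∈ powersetCard l E, if Pair (colA pos base E c0 c2 c3 A) M then 1 else 0
  have hval : ∀ π : Equiv.Perm (Cell (m + 2)), F (L ∘ π) = if Q (L ∘ π) then 1 else 0 := fun π =>
    sum_colA pos base c0 c2 c3 r l hpos h02 h03 h23 hb E hE hEcard hr (L ∘ π)
      (fun A hA' i => (sz_comp L π i).trans ((hL i).trans (cj_congr (hA A hA') i).symm))
  have hinvw : ∀ (w : Equiv.Perm (Cell (m + 2))), (∀ x, x ∉ E → w x = x) →
      ∀ π : Equiv.Perm (Cell (m + 2)), F (L ∘ π ∘ w) = F (L ∘ π) := by
    intro w hw π
    have hwE : ∀ x, x ∈ E → w x ∈ E := fun x hx => by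
      by_contra h
      exact h (by rw [w.injective (hw _ h)]; exact hx)
    have hwE' : ∀ x, w x ∈ E → x ∈ E := fun x hx => by
      by_contra h
      exact h (hw x h ▸ hx)
    have h := hval (w.trans π)
    rw [Equiv.coe_trans] at h
    rw [h, hval π]
    refine if_congr (and_congr ?_ ?_) rfl rfl
    · constructor
      · intro h x y hx hy a b
        exact h x y hx hy a (by simpa [hw x hx, hw y hy] using b)
      · intro h x y hx hy a b
        exact h x y hx hy a (by simpa [hw x hx, hw y hy] using b)
    · refine forall_congr' (fun i => ?_)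
      rw [show (E.filter (fun x => (L ∘ ⇑π ∘ ⇑w) x = i)).card
          = (E.filter (fun x => (L ∘ ⇑π) x = i)).card from ?_]
      apply Finset.card_equiv w
      intro x; simp only [mem_filter, Function.comp]
      exact ⟨fun ⟨a, b⟩ => ⟨hwE x a, b⟩, fun ⟨a, b⟩ => ⟨hwE' x a, b⟩⟩
  let L' : Cell (m + 1) → ℕ := Sum.elim tg L1 ∘ diagSplit m
  let F' : (Cell (m + 1) → ℕ) → ZMod 2 := fun M => F (Sum.elim tf M ∘ rowSplit (m + 1))
  have e2 : ∀ π' : Equiv.Perm (Cell (m + 1)), F (L ∘ extPerm π') = F' (L' ∘ π') := fun π' => by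
    simp only [L, F', L', cnt_peel_top]
  have hinv' : ∀ (π : Equiv.Perm (Cell (m + 1))) (s t : Fin (m + 1)),
      F' (L' ∘ π ∘ Equiv.swap (topCell s) (topCell t)) = F' (L' ∘ π) := by
    intro π s t
    have hs : Sum.elim tf (L' ∘ ⇑π ∘ ⇑(Equiv.swap (topCell s) (topCell t))) ∘ rowSplit (m + 1)
        = L ∘ ⇑(extPerm π) ∘ ⇑(Equiv.swap (lowCell (topCell s)) (lowCell (topCell t))) := by
      rw [← Function.comp_assoc L, show (L ∘ ⇑(extPerm π))
          = Sum.elim tf (L' ∘ ⇑π) ∘ rowSplit (m + 1) from cnt_peel_top _ _ _]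
      funext x
      rcases top_or_low x with ⟨u, rfl⟩ | ⟨y, rfl⟩
      · rw [Function.comp_apply, Function.comp_apply, Equiv.swap_apply_of_ne_of_ne
          (fun h => by simpa using congrArg cr h) (fun h => by simpa using congrArg cr h)]
        simp [topCell]
      · have hinj : Function.Injective (@lowCell (m + 1)) := fun a b h => by
          simpa [lowCell] using h
        rw [Function.comp_apply, Function.comp_apply, hinj.swap_apply]
        simp [lowCell]
    rw [← e2]
    simp only [F', hs]
    refine hinvw _ (fun x hx => ?_) _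
    apply Equiv.swap_apply_of_ne_of_ne
    · rintro rfl; exact hx (by simp [hE, hbase, ext2_low_top])
    · rintro rfl; exact hx (by simp [hE, hbase, ext2_low_top])
  have htot : ∑ A ∈ powersetCard l E, cnt (m + 2) (colA pos base E c0 c2 c3 A) L = 1 := by
    have e1 : ∑ A ∈ powersetCard l E, cnt (m + 2) (colA pos base E c0 c2 c3 A) L
        = ∑ π ∈ piSet (m + 2), F (L ∘ π) := by unfold cnt; exact sum_comm
    rw [e1, peel F L (fun π s t => hinvw _ (fun x hx => by
      apply Equiv.swap_apply_of_ne_of_ne
      · rintro rfl; exact hx (by simp [hE, hbase, ext2_top])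
      · rintro rfl; exact hx (by simp [hE, hbase, ext2_top])) π), sum_congr rfl (fun π' _ => e2 π'),
      peel F' L' hinv', ← hc1]
    unfold cnt
    refine sum_congr rfl (fun π' _ => ?_)
    rw [← e2, hval]
    refine if_congr ?_ rfl rfl
    simp only [Q]
    rw [show L ∘ ⇑(extPerm (extPerm π'))
        = Sum.elim tf (Sum.elim tg (L1 ∘ π') ∘ rowSplit m) ∘ rowSplit (m + 1)
      from cnt_peel_top2 _ _ _ _]
    exact box_value c0 r l R colY (L1 ∘ π') tf tg ((hsY c0).trans (if_pos rfl))
      (fun i => (sz_comp L1 π' i).trans (hLY i)) ht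
  obtain ⟨A, hA', hne⟩ := exists_ne_zero_of_sum_ne_zero
    (show ∑ A ∈ powersetCard l E, cnt (m + 2) (colA pos base E c0 c2 c3 A) L ≠ 0 by
      rw [htot]; exact one_ne_zero)
  refine good_of_sz (hA A hA')
    ⟨Equiv.refl _, L, fun i => (hL i).trans (cj_congr (hA A hA') i).symm, ?_⟩
  rw [Equiv.coe_refl, Function.comp_id]
  revert hne
  generalize cnt (m + 2) (colA pos base E c0 c2 c3 A) L = z
  revert z
  decide

end Vale.Agent.P197
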