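import Mathlib

/-!
# Specht modules over the complex numbers, and the staircase
-/

namespace Vale.Agent.P197

/-- The staircase diagram: cells `(i, j)` (row, column, from `0`) with `i + j < m`. -/
def staircase (m : ℕ) : YoungDiagram where
  cells := (Finset.range m ×ˢ Finset.range m).filter (fun p => p.1 + p.2 < m)
  isLowerSet := by
    intro a b hab ha
    simp only [Finset.coe_filter, Finset.mem_product, Finset.mem_range, Set.mem_ofPred_eq] at ha ⊢
    have h1 := hab.1
    have h2 := hab.2
    omega

/-- The action of a permutation on functions of tabloids (labellings of the points by rows). -/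
noncomputable def tabAct {n : ℕ} (σ : Equiv.Perm (Fin n)) :
    ((Fin n → ℕ) → ℂ) →ₗ[ℂ] ((Fin n → ℕ) → ℂ) :=
  LinearMap.funLeft ℂ ℂ (fun l x => l (σ x))

/-- The polytabloid of a tableau `T`: the signed sum, over permutations `c` keeping every point in
its column, of the tabloid `c{T}` in which the point `c x` lies in the row of `x`. -/
noncomputable def polytabloid {n : ℕ} {μ : YoungDiagram} (T : Fin n ≃ μ.cells) :
    (Fin n → ℕ) → ℂ :=
  fun l => ∑ c : Equiv.Perm (Fin n) with (∀ x, (T (c x)).val.2 = (T x).val.2),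
    if (∀ x, l (c x) = (T x).val.1) then ((Equiv.Perm.sign c : ℤ) : ℂ) else 0

/-- The Specht module of shape `μ`: the span of all its polytabloids. -/
noncomputable def specht (n : ℕ) (μ : YoungDiagram) : Submodule ℂ ((Fin n → ℕ) → ℂ) :=
  Submodule.span ℂ (Set.range fun T : Fin n ≃ μ.cells => polytabloid T)

theorem tabAct_polytabloid {n : ℕ} {μ : YoungDiagram} (σ : Equiv.Perm (Fin n))
    (T : Fin n ≃ μ.cells) : tabAct σ (polytabloid T) = polytabloid (σ.symm.trans T) := by
  funext l
  simp only [tabAct, LinearMap.funLeft_apply, polytabloid]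
  refine Finset.sum_equiv (MulAut.conj σ).toEquiv ?_ ?_
  · intro c
    rw [Finset.mem_filter_univ, Finset.mem_filter_univ]
    simp only [MulEquiv.toEquiv_eq_coe, EquivLike.coe_coe, MulAut.conj_apply, Equiv.trans_apply,
      Equiv.Perm.mul_apply]
    constructor
    · intro h x
      simpa using h (σ⁻¹ x)
    · intro h x
      simpa using h (σ x)
  · intro c _
    simp only [MulEquiv.toEquiv_eq_coe, EquivLike.coe_coe, MulAut.conj_apply, Equiv.trans_apply,
      Equiv.Perm.mul_apply, map_mul, map_inv]
    have h : (∀ x, l (σ (c x)) = (T x).val.1) ↔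
        (∀ x, l (σ (c (σ⁻¹ x))) = (T (σ.symm x)).val.1) :=
      ⟨fun h x => h (σ⁻¹ x), fun h x => by simpa using h (σ x)⟩
    have hs : Equiv.Perm.sign σ * Equiv.Perm.sign c * (Equiv.Perm.sign σ)⁻¹ = Equiv.Perm.sign c := by
      rw [mul_comm (Equiv.Perm.sign σ), mul_inv_cancel_right]
    rw [hs]
    exact if_congr h rfl rfl

theorem tabAct_mem {n : ℕ} {μ : YoungDiagram} (σ : Equiv.Perm (Fin n)) :
    ∀ x ∈ specht n μ, tabAct σ x ∈ specht n μ := by
  intro x hx
  refine Submodule.span_induction ?_ ?_ ?_ ?_ hx
  · rintro _ ⟨T, rfl⟩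
    simp only [tabAct_polytabloid]
    exact Submodule.subset_span ⟨_, rfl⟩
  · simp
  · intro a b _ _ ha hb
    rw [map_add]; exact Submodule.add_mem _ ha hb
  · intro c a _ ha
    rw [map_smul]; exact Submodule.smul_mem _ c ha

/-- The action of a permutation on the Specht module. -/
noncomputable def spechtAct {n : ℕ} (μ : YoungDiagram) (σ : Equiv.Perm (Fin n)) :
    specht n μ →ₗ[ℂ] specht n μ :=
  (tabAct σ).restrict (tabAct_mem σ)

end Vale.Agent.P197
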