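import Vale.Agent.P197.Hist
import Vale.Agent.P197.Statement

/-!
# From the parity criterion to an equivariant map into the tensor square
-/

namespace Vale.Agent.P197

open Finset TensorProduct

section

variable {n : ℕ} {μ : YoungDiagram}

/-- The column of a point in a tableau. -/
def tcol (T : Fin n ≃ μ.cells) (x : Fin n) : ℕ := (T x).val.2

/-- A labelling is a bijection onto the rows on every column. -/
def Hit (T : Fin n ≃ μ.cells) (l : Fin n → ℕ) : Prop :=
  Pair (tcol T) l ∧ ∀ x, l x < μ.colLen (tcol T x)

instance (T : Fin n ≃ μ.cells) (l : Fin n → ℕ) : Decidable (Hit T l) := by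
  unfold Hit; infer_instance

/-- The polytabloid with integer values. -/
def polyZ (T : Fin n ≃ μ.cells) (l : Fin n → ℕ) : ℤ :=
  ∑ c : Equiv.Perm (Fin n) with (∀ x, (T (c x)).val.2 = (T x).val.2),
    if (∀ x, l (c x) = (T x).val.1) then (Equiv.Perm.sign c : ℤ) else 0

theorem polyZ_cast (T : Fin n ≃ μ.cells) (l : Fin n → ℕ) :
    ((polyZ T l : ℤ) : ℂ) = polytabloid T l := by
  simp only [polyZ, polytabloid, Int.cast_sum]
  refine Finset.sum_congr rfl fun c _ => ?_
  split_ifs <;> simp

theorem sign_cast_two {α : Type*} [Fintype α] [DecidableEq α] (c : Equiv.Perm α) :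
    (((Equiv.Perm.sign c : ℤ)) : ZMod 2) = 1 := by
  rcases Int.units_eq_one_or (Equiv.Perm.sign c) with h | h <;> rw [h] <;> decide

/-- Modulo two a polytabloid is the indicator of the labellings that are bijective on columns. -/
theorem polyZ_mod_two (T : Fin n ≃ μ.cells) (l : Fin n → ℕ) :
    ((polyZ T l : ℤ) : ZMod 2) = if Hit T l then 1 else 0 := by
  simp only [polyZ, Int.cast_sum]
  by_cases h : Hit T l
  · rw [if_pos h]
    obtain ⟨hP, hb⟩ := h
    let g : Fin n → Fin n := fun x =>
      T.symm ⟨(l x, tcol T x), YoungDiagram.mem_iff_lt_colLen.2 (hb x)⟩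
    have hg : ∀ x, (T (g x)).val = (l x, tcol T x) := fun x => by simp [g]
    have hinj : Function.Injective g := fun x y e => by
      have := congrArg (fun z => (T z).val) e
      simp only [hg, Prod.mk.injEq] at this
      exact hP x y this.2 this.1
    let e : Equiv.Perm (Fin n) := Equiv.ofBijective g (Finite.injective_iff_bijective.1 hinj)
    have he : ∀ x, e x = g x := fun x => rfl
    rw [Finset.sum_eq_single e.symm]
    · rw [if_pos, sign_cast_two]
      intro x
      have := congrArg Prod.fst (hg (e.symm x))
      rw [← he, Equiv.apply_symm_apply] at this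
      exact this.symm
    · intro c hc hne
      rw [Finset.mem_filter_univ] at hc
      rw [if_neg, Int.cast_zero]
      intro hl
      apply hne
      ext1 x
      apply e.injective
      rw [Equiv.apply_symm_apply, he]
      apply T.injective
      apply Subtype.ext
      rw [hg, hl x, tcol, hc x]
    · intro hmem
      exfalso
      apply hmem
      rw [Finset.mem_filter_univ]
      intro x
      have := congrArg Prod.snd (hg (e.symm x))
      rw [← he, Equiv.apply_symm_apply] at this
      exact this.symm
  · rw [if_neg h]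
    refine Finset.sum_eq_zero fun c hc => ?_
    rw [Finset.mem_filter_univ] at hc
    rw [if_neg, Int.cast_zero]
    intro hl
    apply h
    refine ⟨fun x y hx hy => ?_, fun x => ?_⟩
    · obtain ⟨a, rfl⟩ := c.surjective x
      obtain ⟨b, rfl⟩ := c.surjective y
      congr 1
      apply T.injective
      apply Subtype.ext
      simp only [tcol, hc] at hx
      rw [hl, hl] at hy
      exact Prod.ext hy hx
    · obtain ⟨a, rfl⟩ := c.surjective x
      rw [hl, tcol, hc]
      exact YoungDiagram.mem_iff_lt_colLen.1 (by
        rw [Prod.mk.eta]; exact (T a).2)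

theorem tabAct_tabAct (σ τ : Equiv.Perm (Fin n)) (f : (Fin n → ℕ) → ℂ) :
    tabAct σ (tabAct τ f) = tabAct (σ * τ) f := rfl

theorem spechtAct_mul (σ τ : Equiv.Perm (Fin n)) (x : specht n μ) :
    spechtAct μ σ (spechtAct μ τ x) = spechtAct μ (σ * τ) x := Subtype.ext rfl

/-- A polytabloid as an element of the Specht module. -/
noncomputable def polyElt (T : Fin n ≃ μ.cells) : specht n μ :=
  ⟨polytabloid T, Submodule.subset_span ⟨T, rfl⟩⟩

end

/-- The cells of the staircase as a diagram. -/
def cellEquiv (m : ℕ) : Cell m ≃ (staircase m).cells where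
  toFun x := ⟨(x.1.1.val, x.1.2.val), by simp [staircase, x.2]⟩
  invFun y := ⟨(⟨y.1.1, by have := y.2; simp [staircase] at this; omega⟩,
    ⟨y.1.2, by have := y.2; simp [staircase] at this; omega⟩),
    by have := y.2; simp [staircase] at this; exact this.2⟩
  left_inv x := rfl
  right_inv y := rfl

/-- Transposition of the staircase. -/
def flipCell (m : ℕ) : Cell m ≃ Cell m where
  toFun x := ⟨(x.1.2, x.1.1), by have := x.2; dsimp only; omega⟩
  invFun x := ⟨(x.1.2, x.1.1), by have := x.2; dsimp only; omega⟩
  left_inv x := rfl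
  right_inv x := rfl

theorem colLen_staircase (m j i : ℕ) : i < (staircase m).colLen j ↔ i + j < m := by
  rw [← YoungDiagram.mem_iff_lt_colLen]
  show (i, j) ∈ (staircase m).cells ↔ _
  simp [staircase]
  omega

theorem card_cell : ∀ m : ℕ, 2 * Fintype.card (Cell m) = m * (m + 1)
  | 0 => by simp
  | m + 1 => by
    have := card_cell m
    rw [Fintype.card_congr (rowSplit m), Fintype.card_sum, Fintype.card_fin]
    linarith

/-- The parity criterion gives, for every shape, a nonzero equivariant map from its Specht module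
into the tensor square of the staircase Specht module. -/
theorem saxl_of_good (m : ℕ) (hgood : ∀ col : Cell m → ℕ, Good m col) (ν : YoungDiagram)
    (hν : ν.card = m * (m + 1) / 2) :
    ∃ φ : specht (m*(m+1)/2) ν →ₗ[ℂ]
        TensorProduct ℂ (specht (m*(m+1)/2) (staircase m)) (specht (m*(m+1)/2) (staircase m)),
      φ ≠ 0 ∧ ∀ (σ : Equiv.Perm (Fin (m*(m+1)/2))) x, φ (spechtAct ν σ x) =
        TensorProduct.map (spechtAct (staircase m) σ) (spechtAct (staircase m) σ) (φ x) := by
  classical
  set n := m * (m + 1) / 2 with hn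
  have hcard : Fintype.card (Cell m) = n := by have := card_cell m; omega
  let E : Fin n ≃ Cell m := (Fintype.equivFinOfCardEq hcard).symm
  let T0 : Fin n ≃ ν.cells := (Fintype.equivFinOfCardEq (by rw [Fintype.card_coe]; exact hν)).symm
  let col : Cell m → ℕ := fun y => tcol T0 (E.symm y)
  obtain ⟨σ, L, hL, hcnt⟩ := hgood col
  have hsz : ∀ c, sz col c = ν.colLen c := by
    intro c
    rw [YoungDiagram.colLen_eq_card, sz]
    refine Finset.card_bij (fun y _ => (T0 (E.symm y)).val) ?_ ?_ ?_
    · intro y hy
      simp only [mem_filter, mem_univ, true_and] at hy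
      exact YoungDiagram.mem_col_iff.2 ⟨(T0 _).2, hy⟩
    · intro a _ b _ hab
      exact E.symm.injective (T0.injective (Subtype.ext hab))
    · intro z hz
      rw [YoungDiagram.mem_col_iff] at hz
      refine ⟨E (T0.symm ⟨z, hz.1⟩), ?_, by simp⟩
      refine Finset.mem_filter.2 ⟨Finset.mem_univ _, ?_⟩
      simp only [col, tcol, Equiv.symm_apply_apply, Equiv.apply_symm_apply]
      exact hz.2
  let T : Fin n ≃ ν.cells := (E.trans σ).trans (E.symm.trans T0)
  let U : Fin n ≃ (staircase m).cells := E.trans (cellEquiv m)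
  let V : Fin n ≃ (staircase m).cells := E.trans ((flipCell m).trans (cellEquiv m))
  let l0 : Fin n → ℕ := L ∘ E
  let φ' : ((Fin n → ℕ) → ℂ) →ₗ[ℂ]
      TensorProduct ℂ (specht n (staircase m)) (specht n (staircase m)) :=
    ∑ g : Equiv.Perm (Fin n), LinearMap.smulRight (LinearMap.proj (l0 ∘ g))
      (spechtAct (staircase m) g⁻¹ (polyElt U) ⊗ₜ spechtAct (staircase m) g⁻¹ (polyElt V))
  refine ⟨φ'.comp (specht n ν).subtype, ?_, ?_⟩
  · intro h0
    have h1 : φ' (polytabloid T) = 0 := LinearMap.congr_fun h0 (polyElt T)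
    let ev : (Fin n → ℕ) → (specht n (staircase m) →ₗ[ℂ] ℂ) := fun s =>
      (LinearMap.proj s : ((Fin n → ℕ) → ℂ) →ₗ[ℂ] ℂ).comp (specht n (staircase m)).subtype
    have h2 := congrArg (fun z => TensorProduct.lid ℂ ℂ
      (TensorProduct.map (ev (cr ∘ E)) (ev (cs ∘ E)) z)) h1
    simp only [φ', LinearMap.sum_apply, LinearMap.smulRight_apply, LinearMap.proj_apply, map_sum,
      map_smul, TensorProduct.map_tmul, TensorProduct.lid_tmul, smul_eq_mul, map_zero] at h2
    have hterm : ∀ g : Equiv.Perm (Fin n),
        polytabloid T (l0 ∘ g) *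
          (ev (cr ∘ E) (spechtAct (staircase m) g⁻¹ (polyElt U)) *
            ev (cs ∘ E) (spechtAct (staircase m) g⁻¹ (polyElt V))) =
        ((polyZ T (l0 ∘ g) *
          (polyZ U (cr ∘ E ∘ ⇑g⁻¹) * polyZ V (cs ∘ E ∘ ⇑g⁻¹)) : ℤ) : ℂ) := by
      intro g
      rw [Int.cast_mul, Int.cast_mul, polyZ_cast, polyZ_cast, polyZ_cast]
      rfl
    rw [Finset.sum_congr rfl (fun g _ => hterm g), ← Int.cast_sum, Int.cast_eq_zero] at h2
    have h3 : ((0 : ℤ) : ZMod 2) = 1 := by
      rw [← h2, Int.cast_sum, ← hcnt, cnt, piSet, Finset.sum_filter]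
      refine Fintype.sum_equiv E.permCongr _ _ fun g => ?_
      rw [Int.cast_mul, Int.cast_mul, polyZ_mod_two, polyZ_mod_two, polyZ_mod_two]
      set π := E.permCongr g with hπ
      have e1 : ∀ y, π y = E (g (E.symm y)) := fun y => by simp [hπ, Equiv.permCongr_apply]
      have e2 : ∀ y, π.symm y = E (g⁻¹ (E.symm y)) := fun y => by
        rw [Equiv.symm_apply_eq, e1]; simp
      have hA : Hit T (l0 ∘ g) ↔ Pair (col ∘ σ) (L ∘ π) := by
        have hc : ∀ x, tcol T x = col (σ (E x)) := fun x => rfl
        constructor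
        · rintro ⟨hP, -⟩ y z hy hz
          have := hP (E.symm y) (E.symm z) (by simpa [hc] using hy)
            (by simpa [l0, e1] using hz)
          exact E.symm.injective this
        · intro hP
          refine ⟨fun x y hx hy => E.injective (hP _ _ (by simpa [hc] using hx)
            (by simpa [l0, e1] using hy)), fun x => ?_⟩
          have hL' : ∀ i, sz (L ∘ π) i = cj (col ∘ σ) i := fun i => by
            rw [sz_comp, hL]
            exact (cj_congr (fun c => sz_comp col σ c) i).symm
          have := label_lt hL' hP (E x)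
          rw [sz_comp, Function.comp_apply, hsz] at this
          simpa [l0, e1, hc] using this
      have hBC : (Hit U (cr ∘ E ∘ ⇑g⁻¹) ∧ Hit V (cs ∘ E ∘ ⇑g⁻¹)) ↔ IsPi m π := by
        have hU : ∀ x, tcol U x = cs (E x) := fun x => rfl
        have hV : ∀ x, tcol V x = cr (E x) := fun x => rfl
        constructor
        · rintro ⟨⟨hP, hb⟩, hP', hb'⟩
          have : IsPi m π.symm := by
            refine ⟨fun y => ?_, fun y => ?_, fun y z hy hz => ?_, fun y z hy hz => ?_⟩
            · have := (colLen_staircase m _ _).1 (hb (E.symm y))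
              simpa [hU, e2] using this
            · have := (colLen_staircase m _ _).1 (hb' (E.symm y))
              simpa [hV, e2] using this
            · exact E.symm.injective (hP _ _ (by simpa [hU] using hy) (by simpa [e2] using hz))
            · exact E.symm.injective (hP' _ _ (by simpa [hV] using hy) (by simpa [e2] using hz))
          simpa using isPi_symm this
        · intro h
          obtain ⟨h1, h2, h3, h4⟩ := isPi_symm h
          refine ⟨⟨fun x y hx hy => ?_, fun x => ?_⟩, fun x y hx hy => ?_, fun x => ?_⟩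
          · exact E.injective (h3 _ _ (by simpa [hU] using hx) (by simpa [e2] using hy))
          · exact (colLen_staircase m _ _).2 (by simpa [hU, e2] using h1 (E x))
          · exact E.injective (h4 _ _ (by simpa [hV] using hx) (by simpa [e2] using hy))
          · exact (colLen_staircase m _ _).2 (by simpa [hV, e2] using h2 (E x))
      by_cases hB : IsPi m π
      · rw [if_pos hB, if_pos (hBC.2 hB).1, if_pos (hBC.2 hB).2, mul_one, mul_one]
        exact if_congr hA rfl rfl
      · rw [if_neg hB]
        by_cases hu : Hit U (cr ∘ E ∘ ⇑g⁻¹)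
        · rw [if_neg (fun hv => hB (hBC.1 ⟨hu, hv⟩)), mul_zero, mul_zero]
        · rw [if_neg hu, zero_mul, mul_zero]
    simp at h3
  · intro τ x
    show φ' (tabAct τ x.1) = TensorProduct.map _ _ (φ' x.1)
    simp only [φ', LinearMap.sum_apply, LinearMap.smulRight_apply, LinearMap.proj_apply, map_sum,
      map_smul, TensorProduct.map_tmul, spechtAct_mul]
    refine Fintype.sum_equiv (Equiv.mulRight τ) _ _ fun g => ?_
    rw [Equiv.coe_mulRight, mul_inv_rev, mul_inv_cancel_left]
    rfl

end Vale.Agent.P197
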