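import Mathlib

/-!
# Staircase cells, the set of labellings `IsPi`, and the peeling identity
-/

namespace Vale.Agent.P197

open Finset

/-- The cells of the staircase diagram with `m` rows. -/
abbrev Cell (m : ℕ) : Type := {p : Fin m × Fin m // p.1.val + p.2.val < m}

/-- Row index of a cell. -/
abbrev cr {m : ℕ} (x : Cell m) : ℕ := x.1.1.val

/-- Column index of a cell. -/
abbrev cs {m : ℕ} (x : Cell m) : ℕ := x.1.2.val

theorem cell_ext {m : ℕ} {x y : Cell m} (h1 : cr x = cr y) (h2 : cs x = cs y) : x = y :=
  Subtype.ext (Prod.ext (Fin.ext h1) (Fin.ext h2))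

/-- Permutations of the staircase whose row coordinate is a bijective labelling of every column and
whose column coordinate is a bijective labelling of every row. -/
def IsPi (m : ℕ) (π : Equiv.Perm (Cell m)) : Prop :=
  (∀ x, cr (π x) + cs x < m) ∧ (∀ x, cs (π x) + cr x < m) ∧
  (∀ x y, cs x = cs y → cr (π x) = cr (π y) → x = y) ∧
  (∀ x y, cr x = cr y → cs (π x) = cs (π y) → x = y)

instance (m : ℕ) : DecidablePred (IsPi m) := fun π => by
  unfold IsPi; infer_instance

/-- The finite set of these permutations. -/
def piSet (m : ℕ) : Finset (Equiv.Perm (Cell m)) := univ.filter (IsPi m)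

theorem mem_piSet {m : ℕ} {π : Equiv.Perm (Cell m)} : π ∈ piSet m ↔ IsPi m π := by
  simp [piSet]

attribute [irreducible] piSet

theorem isPi_symm {m : ℕ} {π : Equiv.Perm (Cell m)} (h : IsPi m π) : IsPi m π.symm := by
  obtain ⟨h1, h2, h3, h4⟩ := h
  refine ⟨fun y => ?_, fun y => ?_, fun y z hy hz => ?_, fun y z hy hz => ?_⟩
  · have := h2 (π.symm y); rw [Equiv.apply_symm_apply] at this; omega
  · have := h1 (π.symm y); rw [Equiv.apply_symm_apply] at this; omega
  · have := h4 (π.symm y) (π.symm z) hz (by simpa using hy)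
    simpa using congrArg π this
  · have := h3 (π.symm y) (π.symm z) hz (by simpa using hy)
    simpa using congrArg π this

/-- The first row, and the rest, of a staircase. -/
def rowSplit (m : ℕ) : Cell (m + 1) ≃ Fin (m + 1) ⊕ Cell m where
  toFun x :=
    if h : cr x = 0 then Sum.inl x.1.2
    else Sum.inr ⟨(⟨x.1.1.val - 1, by
        have := x.2; have := x.1.1.isLt; have h' : ¬ x.1.1.val = 0 := h; omega⟩,
      ⟨x.1.2.val, by have := x.2; have h' : ¬ x.1.1.val = 0 := h; omega⟩),
      by have := x.2; have h' : ¬ x.1.1.val = 0 := h; dsimp only; omega⟩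
  invFun z := match z with
    | Sum.inl s => ⟨(0, s), by have := s.isLt; simp; omega⟩
    | Sum.inr y => ⟨(⟨cr y + 1, by have := y.2; simp only [cr] at *; omega⟩,
        ⟨cs y, by have := y.2; simp only [cs] at *; omega⟩),
        by have := y.2; simp only [cr, cs] at *; omega⟩
  left_inv x := by
    by_cases h : cr x = 0
    · simp only [h, dif_pos]
      apply cell_ext <;> simp [cr, cs] at * <;> simp [h]
    · simp only [h, dif_neg, not_false_iff]
      have h' : ¬ x.1.1.val = 0 := h
      apply cell_ext <;> simp only [cr, cs] <;> omega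
  right_inv z := by
    rcases z with s | y
    · simp [cr]
    · simp [cr, cs]

/-- The last antidiagonal, and the rest, of a staircase. -/
def diagSplit (m : ℕ) : Cell (m + 1) ≃ Fin (m + 1) ⊕ Cell m where
  toFun x :=
    if h : cr x + cs x = m then Sum.inl x.1.2
    else Sum.inr ⟨(⟨x.1.1.val, by
        have := x.2; have h' : ¬ x.1.1.val + x.1.2.val = m := h; omega⟩,
      ⟨x.1.2.val, by have := x.2; have h' : ¬ x.1.1.val + x.1.2.val = m := h; omega⟩),
      by have := x.2; have h' : ¬ x.1.1.val + x.1.2.val = m := h; dsimp only; omega⟩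
  invFun z := match z with
    | Sum.inl s => ⟨(⟨m - s.val, by omega⟩, s), by have := s.isLt; simp; omega⟩
    | Sum.inr y => ⟨(⟨cr y, by have := y.2; simp only [cr] at *; omega⟩,
        ⟨cs y, by have := y.2; simp only [cs] at *; omega⟩),
        by have := y.2; simp only [cr, cs] at *; omega⟩
  left_inv x := by
    by_cases h : cr x + cs x = m
    · simp only [h, dif_pos]
      apply cell_ext <;> simp only [cr, cs] at * <;> omega
    · simp only [h, dif_neg, not_false_iff]
  right_inv z := by
    rcases z with s | y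
    · have := s.isLt
      simp only [cr, cs]
      rw [dif_pos (by omega)]
    · have := y.2
      simp only [cr, cs] at *
      rw [dif_neg (by omega)]


/-- Extend a permutation of the smaller staircase: first row to last antidiagonal. -/
def extPerm {m : ℕ} (π : Equiv.Perm (Cell m)) : Equiv.Perm (Cell (m + 1)) :=
  (rowSplit m).trans ((Equiv.sumCongr (Equiv.refl _) π).trans (diagSplit m).symm)

/-- The cell `(0, s)`. -/
def topCell {m : ℕ} (s : Fin (m + 1)) : Cell (m + 1) := (rowSplit m).symm (Sum.inl s)

/-- The cell below the first row corresponding to a cell of the smaller staircase. -/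
def lowCell {m : ℕ} (y : Cell m) : Cell (m + 1) := (rowSplit m).symm (Sum.inr y)

@[simp] theorem cr_topCell {m : ℕ} (s : Fin (m + 1)) : cr (topCell s) = 0 := rfl
@[simp] theorem cs_topCell {m : ℕ} (s : Fin (m + 1)) : cs (topCell s) = s.val := rfl
@[simp] theorem cr_lowCell {m : ℕ} (y : Cell m) : cr (lowCell y) = cr y + 1 := rfl
@[simp] theorem cs_lowCell {m : ℕ} (y : Cell m) : cs (lowCell y) = cs y := rfl

theorem top_or_low {m : ℕ} (x : Cell (m + 1)) : (∃ s, x = topCell s) ∨ ∃ y, x = lowCell y := by
  rcases h : rowSplit m x with s | y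
  · exact Or.inl ⟨s, by rw [topCell, ← h, Equiv.symm_apply_apply]⟩
  · exact Or.inr ⟨y, by rw [lowCell, ← h, Equiv.symm_apply_apply]⟩

theorem extPerm_top {m : ℕ} (π : Equiv.Perm (Cell m)) (s : Fin (m + 1)) :
    cr (extPerm π (topCell s)) = m - s.val ∧ cs (extPerm π (topCell s)) = s.val := by
  simp [extPerm, topCell, diagSplit, cr, cs]

theorem extPerm_low {m : ℕ} (π : Equiv.Perm (Cell m)) (y : Cell m) :
    cr (extPerm π (lowCell y)) = cr (π y) ∧ cs (extPerm π (lowCell y)) = cs (π y) := by
  simp [extPerm, lowCell, diagSplit, cr, cs]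

theorem isPi_extPerm {m : ℕ} {π : Equiv.Perm (Cell m)} (h : IsPi m π) :
    IsPi (m + 1) (extPerm π) := by
  obtain ⟨h1, h2, h3, h4⟩ := h
  refine ⟨fun x => ?_, fun x => ?_, fun x y hx hy => ?_, fun x y hx hy => ?_⟩
  · rcases top_or_low x with ⟨s, rfl⟩ | ⟨y, rfl⟩
    · rw [(extPerm_top π s).1, cs_topCell]; omega
    · rw [(extPerm_low π y).1, cs_lowCell]; have := h1 y; omega
  · rcases top_or_low x with ⟨s, rfl⟩ | ⟨y, rfl⟩
    · rw [(extPerm_top π s).2, cr_topCell]; omega
    · rw [(extPerm_low π y).2, cr_lowCell]; have := h2 y; omega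
  · rcases top_or_low x with ⟨s, rfl⟩ | ⟨u, rfl⟩ <;> rcases top_or_low y with ⟨t, rfl⟩ | ⟨v, rfl⟩
    · simp only [cs_topCell] at hx; rw [Fin.ext hx]
    · exfalso; rw [(extPerm_top π s).1, (extPerm_low π v).1] at hy
      simp only [cs_topCell, cs_lowCell] at hx; have := h1 v; omega
    · exfalso; rw [(extPerm_low π u).1, (extPerm_top π t).1] at hy
      simp only [cs_topCell, cs_lowCell] at hx; have := h1 u; omega
    · rw [(extPerm_low π u).1, (extPerm_low π v).1] at hy
      simp only [cs_lowCell] at hx; rw [h3 u v hx hy]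
  · rcases top_or_low x with ⟨s, rfl⟩ | ⟨u, rfl⟩ <;> rcases top_or_low y with ⟨t, rfl⟩ | ⟨v, rfl⟩
    · rw [(extPerm_top π s).2, (extPerm_top π t).2] at hy; rw [Fin.ext hy]
    · simp only [cr_topCell, cr_lowCell] at hx; omega
    · simp only [cr_topCell, cr_lowCell] at hx; omega
    · rw [(extPerm_low π u).2, (extPerm_low π v).2] at hy
      simp only [cr_lowCell] at hx; rw [h4 u v (by omega) hy]

theorem extPerm_injective {m : ℕ} : Function.Injective (@extPerm m) := by
  intro π π' h
  ext1 y
  have := congrArg (fun e : Equiv.Perm (Cell (m + 1)) => e (lowCell y)) h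
  simpa [extPerm, lowCell] using this

/-- A permutation in `piSet` with injective first-row rows is an extension. -/
theorem exists_extPerm {m : ℕ} {π : Equiv.Perm (Cell (m + 1))} (h : IsPi (m + 1) π)
    (hinj : Function.Injective fun s => cr (π (topCell s))) :
    ∃ π', IsPi m π' ∧ extPerm π' = π := by
  obtain ⟨h1, h2, h3, h4⟩ := h
  have a_eq : ∀ s : Fin (m + 1), cr (π (topCell s)) = m - s.val := by
    suffices H : ∀ k, ∀ s : Fin (m + 1), m - s.val = k → cr (π (topCell s)) = k from
      fun s => H _ s rfl
    intro k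
    induction k using Nat.strong_induction_on with
    | _ k ih =>
      intro s hs
      have hb := h1 (topCell s)
      rw [cs_topCell] at hb
      rcases Nat.lt_or_ge (cr (π (topCell s))) k with hlt | hge
      · exfalso
        have hsl := s.isLt
        have := ih _ hlt ⟨m - cr (π (topCell s)), by omega⟩ (by simp; omega)
        have e := congrArg Fin.val (hinj this)
        simp at e
        omega
      · omega
  have b_eq : ∀ s : Fin (m + 1), cs (π (topCell s)) = s.val := by
    suffices H : ∀ k, ∀ s : Fin (m + 1), s.val = k → cs (π (topCell s)) = k from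
      fun s => H _ s rfl
    intro k
    induction k using Nat.strong_induction_on with
    | _ k ih =>
      intro s hs
      have hp := (π (topCell s)).2
      have ha := a_eq s
      have hsl := s.isLt
      simp only [cr, cs] at *
      rcases Nat.lt_or_ge ((π (topCell s)).1.2.val) k with hlt | hge
      · exfalso
        let s' : Fin (m + 1) := ⟨(π (topCell s)).1.2.val, by omega⟩
        have h' : cs (π (topCell s')) = cs (π (topCell s)) := ih _ hlt s' rfl
        have e := congrArg cs (h4 (topCell s') (topCell s) rfl h')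
        simp only [cs_topCell, s'] at e
        omega
      · omega
  set Q := (rowSplit m).symm.trans (π.trans (diagSplit m)) with hQ
  have hQl : ∀ s, Q (Sum.inl s) = Sum.inl s := by
    intro s
    have : π (topCell s) = (diagSplit m).symm (Sum.inl s) :=
      cell_ext (by rw [a_eq s]; rfl) (by rw [b_eq s]; rfl)
    simp only [hQ, Equiv.trans_apply]
    rw [show (rowSplit m).symm (Sum.inl s) = topCell s from rfl, this, Equiv.apply_symm_apply]
  have hr : ∀ y, ∃ z, Q (Sum.inr y) = Sum.inr z := by
    intro y
    rcases hz : Q (Sum.inr y) with s | z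
    · exact absurd (Q.injective (hz.trans (hQl s).symm)) (by simp)
    · exact ⟨z, rfl⟩
  choose q hq using hr
  have qinj : Function.Injective q := fun a b hab => by
    have : Q (Sum.inr a) = Q (Sum.inr b) := by rw [hq, hq, hab]
    simpa using Q.injective this
  let π' : Equiv.Perm (Cell m) := Equiv.ofBijective q (Finite.injective_iff_bijective.mp qinj)
  have heq : extPerm π' = π := by
    ext1 x
    rcases top_or_low x with ⟨s, rfl⟩ | ⟨y, rfl⟩
    · exact cell_ext (by rw [(extPerm_top _ s).1, a_eq]) (by rw [(extPerm_top _ s).2, b_eq])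
    · have := hq y
      simp only [hQ, Equiv.trans_apply] at this
      rw [show π (lowCell y) = (diagSplit m).symm (Sum.inr (q y)) by
        rw [← this, Equiv.symm_apply_apply]; rfl]
      simp [extPerm, lowCell, π']
  refine ⟨π', ?_, heq⟩
  have cl : ∀ y, cr (π (lowCell y)) = cr (π' y) ∧ cs (π (lowCell y)) = cs (π' y) := by
    intro y; rw [← heq]; exact extPerm_low π' y
  refine ⟨fun y => ?_, fun y => ?_, fun y z hy hz => ?_, fun y z hy hz => ?_⟩
  · have hb := h1 (lowCell y)
    rw [(cl y).1, cs_lowCell] at hb
    have hy := y.2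
    rcases Nat.lt_or_ge (cr (π' y) + cs y) m with hh | hh
    · exact hh
    · exfalso
      have hs : cs y < m + 1 := by simp only [cs] at *; omega
      have := h3 (lowCell y) (topCell ⟨cs y, hs⟩) (by simp)
        (by rw [(cl y).1, a_eq]; simp; omega)
      simpa using congrArg cr this
  · have := h2 (lowCell y)
    rw [(cl y).2, cr_lowCell] at this; omega
  · have := h3 (lowCell y) (lowCell z) (by simpa using hy)
      (by rw [(cl y).1, (cl z).1]; exact hz)
    simpa [lowCell] using this
  · have := h4 (lowCell y) (lowCell z) (by simpa using hy)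
      (by rw [(cl y).2, (cl z).2]; exact hz)
    simpa [lowCell] using this

theorem isPi_swap_top {m : ℕ} {π : Equiv.Perm (Cell (m + 1))} (h : IsPi (m + 1) π)
    {s t : Fin (m + 1)} (hst : cr (π (topCell s)) = cr (π (topCell t))) :
    IsPi (m + 1) ((Equiv.swap (topCell s) (topCell t)).trans π) := by
  obtain ⟨h1, h2, h3, h4⟩ := h
  set w := Equiv.swap (topCell s) (topCell t) with hw
  have hr : ∀ x, cr (π (w x)) = cr (π x) := by
    intro x; rw [hw, Equiv.swap_apply_def]; split_ifs with a b
    · rw [a, hst]
    · rw [b, hst]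
    · rfl
  have hrow : ∀ x, cr (w x) = cr x := by
    intro x; rw [hw, Equiv.swap_apply_def]; split_ifs with a b
    · rw [a]; rfl
    · rw [b]; rfl
    · rfl
  refine ⟨fun x => ?_, fun x => ?_, fun x y hx hy => ?_, fun x y hx hy => ?_⟩
  · simp only [Equiv.trans_apply]; rw [hr]; exact h1 x
  · simp only [Equiv.trans_apply]; rw [← hrow x]; exact h2 _
  · simp only [Equiv.trans_apply] at hy; rw [hr, hr] at hy; exact h3 x y hx hy
  · simp only [Equiv.trans_apply] at hy
    exact w.injective (h4 _ _ (by rw [hrow, hrow]; exact hx) hy)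

/-- Peeling: modulo two only extensions of smaller permutations survive. -/
theorem peel {m : ℕ} (F : (Cell (m + 1) → ℕ) → ZMod 2) (L : Cell (m + 1) → ℕ)
    (hF : ∀ (π : Equiv.Perm (Cell (m + 1))) (s t : Fin (m + 1)),
      F (L ∘ π ∘ Equiv.swap (topCell s) (topCell t)) = F (L ∘ π)) :
    ∑ π ∈ piSet (m + 1), F (L ∘ π) = ∑ π' ∈ piSet m, F (L ∘ extPerm π') := by
  classical
  let B : Equiv.Perm (Cell (m + 1)) → Finset (Fin (m + 1) × Fin (m + 1)) := fun π =>
    univ.filter fun p => p.1 ≠ p.2 ∧ cr (π (topCell p.1)) = cr (π (topCell p.2))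
  have hsplit := (Finset.sum_filter_add_sum_filter_not (piSet (m + 1))
    (fun π => B π = ∅) (fun π => F (L ∘ π))).symm
  have hbad : ∑ π ∈ (piSet (m + 1)).filter (fun π => ¬ B π = ∅), F (L ∘ π) = 0 := by
    let sel : Finset (Fin (m + 1) × Fin (m + 1)) → Fin (m + 1) × Fin (m + 1) := fun T =>
      if h : T.Nonempty then h.choose else default
    let pick : Equiv.Perm (Cell (m + 1)) → Fin (m + 1) × Fin (m + 1) := fun π => sel (B π)
    let g : Equiv.Perm (Cell (m + 1)) → Equiv.Perm (Cell (m + 1)) := fun π =>
      (Equiv.swap (topCell (pick π).1) (topCell (pick π).2)).trans π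
    have hpick : ∀ π, B π ≠ ∅ → pick π ∈ B π := fun π h => by
      simp only [pick, sel, dif_pos (Finset.nonempty_iff_ne_empty.2 h)]
      exact (Finset.nonempty_iff_ne_empty.2 h).choose_spec
    have hB : ∀ π, B π ≠ ∅ → B (g π) = B π := by
      intro π h
      have hp := hpick π h
      simp only [B, mem_filter, mem_univ, true_and] at hp
      have key : ∀ u, cr (g π (topCell u)) = cr (π (topCell u)) := by
        intro u
        simp only [g, Equiv.trans_apply]
        rw [Equiv.swap_apply_def]; split_ifs with a b
        · rw [a, hp.2]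
        · rw [b, hp.2]
        · rfl
      ext p; simp [B, key]
    have hpg : ∀ π, B π ≠ ∅ → pick (g π) = pick π := fun π h => by
      simp only [pick, hB π h]
    refine Finset.sum_involution (fun π _ => g π) ?_ ?_ ?_ ?_
    · intro π _
      have := hF π (pick π).1 (pick π).2
      have e : (L ∘ ⇑(g π)) = L ∘ ⇑π ∘ ⇑(Equiv.swap (topCell (pick π).1) (topCell (pick π).2)) := rfl
      rw [e, this]; exact CharTwo.add_self_eq_zero _
    · intro π hπ _
      simp only [mem_filter] at hπ
      have hp := hpick π hπ.2
      simp only [B, mem_filter, mem_univ, true_and] at hp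
      intro h
      have := congrArg (fun e : Equiv.Perm (Cell (m + 1)) => π.symm (e (topCell (pick π).1))) h
      simp [g, topCell] at this
      exact hp.1 this.symm
    · intro π hπ
      simp only [mem_filter] at hπ ⊢
      refine ⟨mem_piSet.2 ?_, by rw [hB π hπ.2]; exact hπ.2⟩
      have hp := hpick π hπ.2
      simp only [B, mem_filter, mem_univ, true_and] at hp
      exact isPi_swap_top (mem_piSet.1 hπ.1) hp.2
    · intro π hπ
      simp only [mem_filter] at hπ
      ext1 x
      simp only [g, Equiv.trans_apply]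
      have := hpg π hπ.2
      simp only [g] at this
      rw [this, Equiv.swap_apply_self]
  rw [hsplit, hbad, add_zero]
  symm
  refine Finset.sum_bij (fun π' _ => extPerm π') ?_ ?_ ?_ (fun _ _ => rfl)
  · intro π' h
    simp only [mem_filter, mem_piSet]
    refine ⟨isPi_extPerm (mem_piSet.1 h), ?_⟩
    simp only [B, Finset.filter_eq_empty_iff, mem_univ, true_implies, not_and]
    intro p hne h'
    rw [(extPerm_top π' p.1).1, (extPerm_top π' p.2).1] at h'
    have := p.1.isLt; have := p.2.isLt
    exact hne (Fin.ext (by omega))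
  · intro a _ b _ h; exact extPerm_injective h
  · intro π hπ
    simp only [mem_filter, mem_piSet] at hπ
    obtain ⟨π', h1, h2⟩ := exists_extPerm hπ.1 (fun s t hst => by
      by_contra hne
      have := Finset.filter_eq_empty_iff.1 hπ.2 (mem_univ (s, t))
      exact this ⟨hne, hst⟩)
    exact ⟨π', mem_piSet.2 h1, h2⟩

end Vale.Agent.P197
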