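import Vale.Agent.P197.Cells

/-!
# Histograms of colourings, the parity count and its symmetries
-/

namespace Vale.Agent.P197

open Finset

variable {X : Type*} [Fintype X] [DecidableEq X]

set_option linter.unusedSectionVars false

/-- Size of a fibre. -/
def sz (col : X → ℕ) (c : ℕ) : ℕ := (univ.filter (fun x => col x = c)).card

/-- Number of fibres with more than `i` points. -/
def cj (col : X → ℕ) (i : ℕ) : ℕ := ((univ.image col).filter (fun c => i < sz col c)).card

/-- `(col, L)` separates points. -/
def Pair (col L : X → ℕ) : Prop := ∀ x y, col x = col y → L x = L y → x = y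

instance (col L : X → ℕ) : Decidable (Pair col L) := by unfold Pair; infer_instance

/-- Parity of the number of labellings. -/
def cnt (m : ℕ) (col L : Cell m → ℕ) : ZMod 2 :=
  ∑ π ∈ piSet m, if Pair col (L ∘ π) then 1 else 0

/-- The parity criterion for the fibre sizes of `col`. -/
def Good (m : ℕ) (col : Cell m → ℕ) : Prop :=
  ∃ σ : Equiv.Perm (Cell m), ∃ L : Cell m → ℕ,
    (∀ i, sz L i = cj col i) ∧ cnt m (col ∘ σ) L = 1

theorem pair_comm {A B : X → ℕ} : Pair A B ↔ Pair B A :=
  ⟨fun h x y a b => h x y b a, fun h x y a b => h x y b a⟩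

omit [DecidableEq X] in
theorem sz_comp (col : X → ℕ) (σ : Equiv.Perm X) (c : ℕ) : sz (col ∘ σ) c = sz col c := by
  classical
  unfold sz
  apply Finset.card_equiv σ
  intro x; simp

omit [DecidableEq X] in
theorem sz_pos_iff {col : X → ℕ} {c : ℕ} : 0 < sz col c ↔ c ∈ univ.image col := by
  classical
  simp [sz, Finset.card_pos, Finset.Nonempty]

omit [DecidableEq X] in
theorem sz_pos (col : X → ℕ) (x : X) : 0 < sz col (col x) :=
  sz_pos_iff.2 (mem_image_of_mem col (mem_univ x))

omit [DecidableEq X] in
theorem cj_eq (col : X → ℕ) (S : Finset ℕ) (hS : ∀ c, 0 < sz col c → c ∈ S) (i : ℕ) :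
    cj col i = (S.filter (fun c => i < sz col c)).card := by
  classical
  unfold cj
  congr 1
  ext c
  simp only [mem_filter]
  constructor
  · rintro ⟨-, h⟩; exact ⟨hS c (by omega), h⟩
  · rintro ⟨-, h⟩; exact ⟨sz_pos_iff.1 (by omega), h⟩

omit [DecidableEq X] in
theorem cj_congr {A B : X → ℕ} (h : ∀ c, sz A c = sz B c) (i : ℕ) : cj A i = cj B i := by
  classical
  rw [cj_eq A (univ.image B) (fun c hc => sz_pos_iff.1 (h c ▸ hc))]
  unfold cj
  congr 1
  ext c
  simp [h]

/-- Two colourings with the same histogram differ by a permutation. -/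
theorem exists_perm_of_sz {A B : X → ℕ} (h : ∀ c, sz A c = sz B c) :
    ∃ σ : Equiv.Perm X, A ∘ σ = B := by
  classical
  have e : ∀ c, {x // B x = c} ≃ {x // A x = c} := fun c =>
    Fintype.equivOfCardEq (by
      rw [Fintype.card_subtype, Fintype.card_subtype]; exact (h c).symm)
  exact ⟨Equiv.ofFiberEquiv e, funext fun x => Equiv.ofFiberEquiv_map e x⟩

omit [DecidableEq X] in
theorem sum_sz (col : X → ℕ) (S : Finset ℕ) (hS : ∀ x, col x ∈ S) :
    ∑ c ∈ S, sz col c = Fintype.card X := by
  classical
  exact (Finset.card_eq_sum_card_fiberwise (fun x _ => hS x)).symm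

omit [DecidableEq X] in
/-- Separating points with the conjugate histogram forces every label below its fibre size. -/
theorem label_lt {col L : X → ℕ} (hL : ∀ i, sz L i = cj col i) (hP : Pair col L) (x : X) :
    L x < sz col (col x) := by
  classical
  set k := sz col (col x) with hk
  let C := univ.image col
  have hle : ∀ c ∈ C, (univ.filter (fun y => col y = c ∧ L y < k)).card ≤ min k (sz col c) := by
    intro c _
    refine le_min ?_ (card_le_card (fun y hy => by simp at hy ⊢; exact hy.1))
    calc _ ≤ (range k).card := card_le_card_of_injOn L (fun y hy => by simp at hy ⊢; exact hy.2)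
          (fun a ha b hb h => by simp at ha hb; exact hP a b (ha.1.trans hb.1.symm) h)
      _ = k := card_range k
  have htot : ∑ c ∈ C, (univ.filter (fun y => col y = c ∧ L y < k)).card
      = ∑ c ∈ C, min k (sz col c) := by
    have e1 : (univ.filter (fun y => L y < k)).card = ∑ i ∈ range k, sz L i := by
      rw [Finset.card_eq_sum_card_fiberwise (f := L) (t := range k) (fun y hy => by simp at hy ⊢; exact hy)]
      refine sum_congr rfl (fun i hi => ?_)
      unfold sz; congr 1; ext y; simp at hi ⊢; omega
    have e2 : (univ.filter (fun y => L y < k)).card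
        = ∑ c ∈ C, (univ.filter (fun y => col y = c ∧ L y < k)).card := by
      rw [Finset.card_eq_sum_card_fiberwise (f := col) (t := C)
        (fun y _ => mem_image_of_mem col (mem_univ y))]
      refine sum_congr rfl (fun c _ => ?_)
      congr 1; ext y; simp [and_comm]
    rw [← e2, e1]
    simp only [hL, cj, card_filter]
    rw [Finset.sum_comm]
    refine sum_congr rfl (fun c _ => ?_)
    rw [← card_filter]
    calc _ = (range (min k (sz col c))).card := by congr 1; ext i; simp
      _ = _ := card_range _
  have hx : (univ.filter (fun y => col y = col x ∧ L y < k)).card = k := by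
    have := (Finset.sum_eq_sum_iff_of_le hle).1 htot (col x) (mem_image_of_mem col (mem_univ x))
    rw [this, ← hk, min_self]
  have : univ.filter (fun y => col y = col x ∧ L y < k) = univ.filter (fun y => col y = col x) :=
    eq_of_subset_of_card_le (fun y hy => by simp at hy ⊢; exact hy.1) (by rw [hx]; rfl)
  have hmem : x ∈ univ.filter (fun y => col y = col x ∧ L y < k) := by rw [this]; simp
  simp at hmem; exact hmem

omit [DecidableEq X] in
/-- On every fibre the labels are exactly `0, …, size - 1`. -/
theorem label_hit {col L : X → ℕ} (hL : ∀ i, sz L i = cj col i) (hP : Pair col L) (c i : ℕ) :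
    (univ.filter (fun y => col y = c ∧ L y = i)).card = if i < sz col c then 1 else 0 := by
  classical
  split_ifs with h
  · have himg : (univ.filter (fun y => col y = c)).image L = range (sz col c) := by
      refine eq_of_subset_of_card_le ?_ ?_
      · intro j hj
        simp at hj ⊢
        obtain ⟨y, rfl, rfl⟩ := hj
        exact label_lt hL hP y
      · rw [card_image_of_injOn, card_range]
        · exact le_rfl
        · intro a ha b hb e; simp at ha hb; exact hP a b (ha.trans hb.symm) e
    have : i ∈ (univ.filter (fun y => col y = c)).image L := by rw [himg]; simpa using h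
    obtain ⟨y, hy, rfl⟩ := mem_image.1 this
    rw [card_eq_one]
    refine ⟨y, ?_⟩
    ext z; simp at hy ⊢
    exact ⟨fun ⟨a, b⟩ => hP z y (a.trans hy.symm) b, fun e => by subst e; exact ⟨hy, rfl⟩⟩
  · rw [card_eq_zero, filter_eq_empty_iff]
    rintro y - ⟨rfl, rfl⟩
    exact h (label_lt hL hP y)

theorem cnt_symm (m : ℕ) (A B : Cell m → ℕ) : cnt m A B = cnt m B A := by
  unfold cnt
  refine Finset.sum_bij' (fun π _ => π.symm) (fun π _ => π.symm)
    (fun π h => mem_piSet.2 (isPi_symm (mem_piSet.1 h)))
    (fun π h => mem_piSet.2 (isPi_symm (mem_piSet.1 h)))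
    (fun π _ => by simp) (fun π _ => by simp) (fun π _ => ?_)
  congr 1
  apply propext
  constructor
  · intro h x y a b
    exact π.symm.injective (h (π.symm x) (π.symm y) (by simpa using b) (by simpa using a))
  · intro h x y a b
    exact π.injective (h (π x) (π y) (by simpa using b) (by simpa using a))

theorem good_of_sz {m : ℕ} {A B : Cell m → ℕ} (h : ∀ c, sz A c = sz B c) (hA : Good m A) :
    Good m B := by
  obtain ⟨σ, L, hL, hc⟩ := hA
  obtain ⟨τ, hτ⟩ := exists_perm_of_sz (fun c => (h c).symm)
  refine ⟨σ.trans τ, L, fun i => (hL i).trans (cj_congr h i), ?_⟩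
  rw [← hc]; congr 1
  funext x
  exact congrFun hτ (σ x)

omit [DecidableEq X] in
theorem sz_relabel (f : ℕ → ℕ) (col : X → ℕ) (hf : Set.InjOn f (Set.range col)) (x : X) :
    sz (f ∘ col) (f (col x)) = sz col (col x) := by
  classical
  unfold sz; congr 1; ext y; simp
  exact ⟨fun h => hf ⟨y, rfl⟩ ⟨x, rfl⟩ h, fun h => by rw [h]⟩

omit [DecidableEq X] in
theorem cj_relabel (f : ℕ → ℕ) (col : X → ℕ) (hf : Set.InjOn f (Set.range col)) (i : ℕ) :
    cj (f ∘ col) i = cj col i := by
  classical
  unfold cj
  rw [← image_image, filter_image, card_image_of_injOn]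
  · congr 1
    refine filter_congr (fun c hc => ?_)
    obtain ⟨x, -, rfl⟩ := mem_image.1 hc
    rw [sz_relabel f col hf x]
  · intro a ha b hb e
    simp at ha hb
    exact hf (by simpa using ha.1) (by simpa using hb.1) e

theorem good_of_relabel {m : ℕ} (f : ℕ → ℕ) {col : Cell m → ℕ}
    (hf : Set.InjOn f (Set.range col)) (h : Good m (f ∘ col)) : Good m col := by
  obtain ⟨σ, L, hL, hc⟩ := h
  refine ⟨σ, L, fun i => (hL i).trans (cj_relabel f col hf i), ?_⟩
  rw [← hc]
  unfold cnt
  refine sum_congr rfl (fun π _ => ?_)
  congr 1
  apply propext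
  constructor
  · intro h x y a b; exact h x y (hf ⟨σ x, rfl⟩ ⟨σ y, rfl⟩ a) b
  · intro h x y a b; exact h x y (by simp [Function.comp] at a ⊢; rw [a]) b

omit [DecidableEq X] in
/-- Relabel the values so that fibre sizes decrease along `0, 1, …`. -/
theorem exists_sorted (col : X → ℕ) :
    ∃ f : ℕ → ℕ, Set.InjOn f (Set.range col) ∧ Antitone (sz (f ∘ col)) := by
  classical
  let le' : ℕ → ℕ → Prop := fun a b => sz col b < sz col a ∨ (sz col a = sz col b ∧ a < b)
  let f : ℕ → ℕ := fun c => ((univ.image col).filter (fun d => le' d c)).card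
  have hlt : ∀ a b, a ∈ univ.image col → le' a b → f a < f b := by
    intro a b ha hab
    apply card_lt_card
    rw [Finset.ssubset_iff_of_subset]
    · exact ⟨a, by simp [ha, hab], by simp [le']⟩
    · intro d hd; simp only [mem_filter] at hd ⊢
      refine ⟨hd.1, ?_⟩
      simp only [le'] at hd hab ⊢
      omega
  have htot : ∀ a b, a ≠ b → le' a b ∨ le' b a := by intro a b h; simp only [le']; omega
  have hinj : Set.InjOn f (Set.range col) := by
    intro a ha b hb h
    by_contra hne
    rcases htot a b hne with q | q
    · exact absurd h (ne_of_lt (hlt a b (by simpa using ha) q))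
    · exact absurd h.symm (ne_of_lt (hlt b a (by simpa using hb) q))
  refine ⟨f, hinj, antitone_nat_of_succ_le (fun n => ?_)⟩
  rcases Nat.eq_zero_or_pos (sz (f ∘ col) (n + 1)) with h | h
  · omega
  obtain ⟨x, -, hx⟩ := mem_image.1 (sz_pos_iff.1 h)
  simp only [Function.comp] at hx
  -- the image of `f` is an initial segment
  have himg : (univ.image col).image f = range (univ.image col).card := by
    refine eq_of_subset_of_card_le ?_ ?_
    · intro y hy
      obtain ⟨c, hc, rfl⟩ := mem_image.1 hy
      simp only [mem_range, f]
      apply card_lt_card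
      rw [Finset.ssubset_iff_of_subset (filter_subset _ _)]
      exact ⟨c, hc, by simp [le']⟩
    · rw [card_range, card_image_of_injOn (f := f)]
      intro a ha b hb e
      exact hinj (by simpa using ha) (by simpa using hb) e
  have hn : n ∈ (univ.image col).image f := by
    have hm : f (col x) ∈ (univ.image col).image f :=
      mem_image_of_mem f (mem_image_of_mem col (mem_univ x))
    rw [himg, mem_range] at hm ⊢; omega
  obtain ⟨d, hd, hfd⟩ := mem_image.1 hn
  obtain ⟨y, -, rfl⟩ := mem_image.1 hd
  rw [← hx, ← hfd, sz_relabel f col hinj, sz_relabel f col hinj]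
  by_contra hcon
  have hq : le' (col x) (col y) := Or.inl (by omega)
  have := hlt _ _ (mem_image_of_mem col (mem_univ x)) hq
  omega

/-- The transposed colouring: rank inside the fibre. -/
noncomputable def transp (col : X → ℕ) (x : X) : ℕ :=
  ((univ.filter (fun y => col y = col x ∧ Fintype.equivFin X y < Fintype.equivFin X x))).card

omit [DecidableEq X] in
theorem pair_transp (col : X → ℕ) : Pair col (transp col) := by
  classical
  have key : ∀ a b, col a = col b → Fintype.equivFin X a < Fintype.equivFin X b →
      transp col a < transp col b := by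
    intro a b h hlt
    apply card_lt_card
    rw [Finset.ssubset_iff_of_subset]
    · exact ⟨a, by simp [h, hlt], by simp⟩
    · intro y hy; simp at hy ⊢; exact ⟨hy.1.trans h, hy.2.trans hlt⟩
  intro x y h e
  rcases lt_trichotomy (Fintype.equivFin X x) (Fintype.equivFin X y) with q | q | q
  · exact absurd e (ne_of_lt (key x y h q))
  · exact (Fintype.equivFin X).injective q
  · exact absurd e.symm (ne_of_lt (key y x h.symm q))

omit [DecidableEq X] in
theorem sz_transp (col : X → ℕ) (i : ℕ) : sz (transp col) i = cj col i := by
  classical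
  have hbound : ∀ x, transp col x < sz col (col x) := by
    intro x
    apply card_lt_card
    rw [Finset.ssubset_iff_of_subset (fun y hy => by simp at hy ⊢; exact hy.1)]
    exact ⟨x, by simp, by simp⟩
  unfold sz cj
  refine Finset.card_bij (fun x _ => col x) ?_ ?_ ?_
  · intro x hx; simp at hx ⊢; exact hx ▸ hbound x
  · intro a ha b hb h; simp at ha hb; exact pair_transp col a b h (ha.trans hb.symm)
  · intro c hc
    simp only [mem_filter] at hc
    have himg : (univ.filter (fun y => col y = c)).image (transp col) = range (sz col c) := by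
      refine eq_of_subset_of_card_le ?_ ?_
      · intro j hj; simp at hj ⊢; obtain ⟨y, rfl, rfl⟩ := hj; exact hbound y
      · rw [card_image_of_injOn, card_range]
        · exact le_rfl
        · intro a ha b hb e; simp at ha hb; exact pair_transp col a b (ha.trans hb.symm) e
    have : i ∈ (univ.filter (fun y => col y = c)).image (transp col) := by
      rw [himg]; exact mem_range.2 hc.2
    obtain ⟨y, hy, rfl⟩ := mem_image.1 this
    simp at hy
    exact ⟨y, by simp, hy⟩

omit [DecidableEq X] in
/-- For decreasing fibre sizes, `cj` is the conjugate. -/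
theorem lt_cj_iff {col : X → ℕ} (h : Antitone (sz col)) (i v : ℕ) :
    i < sz col v ↔ v < cj col i := by
  classical
  have hS : ∀ c, i < sz col c → c ∈ univ.image col := fun c hc => sz_pos_iff.1 (by omega)
  constructor
  · intro hv
    have : range (v + 1) ⊆ (univ.image col).filter (fun c => i < sz col c) := by
      intro c hc
      have := h (show c ≤ v by simpa [Nat.lt_succ_iff] using hc)
      simp only [mem_filter]; exact ⟨hS c (by omega), by omega⟩
    have := card_le_card this
    simp [cj] at this ⊢; omega
  · intro hv
    by_contra hc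
    have : (univ.image col).filter (fun c => i < sz col c) ⊆ range v := by
      intro c hc'
      simp only [mem_filter] at hc'
      by_contra hcv
      simp at hcv
      have := h hcv; omega
    have := card_le_card this
    simp [cj] at this hv; omega

omit [DecidableEq X] in
theorem antitone_cj (col : X → ℕ) : Antitone (cj col) := by
  classical
  intro a b hab
  apply card_le_card
  intro c hc; simp at hc ⊢; exact ⟨hc.1, by omega⟩

omit [DecidableEq X] in
theorem cj_transp {col : X → ℕ} (h : Antitone (sz col)) (c : ℕ) :
    cj (transp col) c = sz col c := by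
  classical
  rw [cj_eq (transp col) (range (sz col 0)) (fun i hi => by
    rw [sz_transp, ← lt_cj_iff h] at hi; exact mem_range.2 hi)]
  calc _ = (range (sz col c)).card := by
        congr 1; ext i
        simp only [mem_filter, mem_range, sz_transp, ← lt_cj_iff h]
        have := h (Nat.zero_le c)
        omega
    _ = _ := card_range _

theorem good_of_transp {m : ℕ} {col : Cell m → ℕ} (h : Antitone (sz col))
    (hg : Good m (transp col)) : Good m col := by
  obtain ⟨σ, L, hL, hc⟩ := hg
  have hsz : ∀ c, sz col c = sz L c := fun c => by rw [hL, cj_transp h]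
  obtain ⟨τ, hτ⟩ := exists_perm_of_sz hsz
  refine ⟨τ, transp col ∘ σ, fun i => ?_, ?_⟩
  · rw [sz_comp, sz_transp]
  · rw [hτ, cnt_symm, hc]

end Vale.Agent.P197
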