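import Vale.Agent.P197.Statement

/-!
# Kronecker coefficients as dimensions of spaces of equivariant maps
-/

namespace Vale.Agent.P197

/-- The Specht module, as a type. -/
def Sp (n : ℕ) (μ : YoungDiagram) : Type := specht n μ

noncomputable instance instAddCommGroupSp (n : ℕ) (μ : YoungDiagram) : AddCommGroup (Sp n μ) :=
  (specht n μ).addCommGroup

noncomputable instance instModuleSp (n : ℕ) (μ : YoungDiagram) : Module ℂ (Sp n μ) :=
  (specht n μ).module

/-- The action of a permutation on the Specht module. -/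
noncomputable def spAct {n : ℕ} (μ : YoungDiagram) (σ : Equiv.Perm (Fin n)) :
    Sp n μ →ₗ[ℂ] Sp n μ :=
  spechtAct μ σ

/-- The tensor product of two Specht modules. -/
def Sq (n : ℕ) (μ κ : YoungDiagram) : Type := TensorProduct ℂ (Sp n μ) (Sp n κ)

noncomputable instance instAddCommGroupSq (n : ℕ) (μ κ : YoungDiagram) :
    AddCommGroup (Sq n μ κ) :=
  TensorProduct.addCommGroup (R := ℂ) (M := Sp n μ) (N := Sp n κ)

noncomputable instance instModuleSq (n : ℕ) (μ κ : YoungDiagram) : Module ℂ (Sq n μ κ) :=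
  TensorProduct.instModule (R := ℂ) (M := Sp n μ) (N := Sp n κ)

/-- The diagonal action of a permutation on the tensor product. -/
noncomputable def sqAct {n : ℕ} (μ κ : YoungDiagram) (σ : Equiv.Perm (Fin n)) :
    Sq n μ κ →ₗ[ℂ] Sq n μ κ :=
  TensorProduct.map (spAct μ σ) (spAct κ σ)

/-- A linear map from the Specht module of `ν` into the tensor product of those of `μ` and `κ`
commutes with all permutations. -/
def IsEquivariant {n : ℕ} {μ κ ν : YoungDiagram} (φ : Sp n ν →ₗ[ℂ] Sq n μ κ) : Prop :=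
  ∀ (σ : Equiv.Perm (Fin n)) x, φ (spAct ν σ x) = sqAct μ κ σ (φ x)

theorem isEquivariant_add {n : ℕ} {μ κ ν : YoungDiagram} {a b : Sp n ν →ₗ[ℂ] Sq n μ κ}
    (ha : IsEquivariant a) (hb : IsEquivariant b) : IsEquivariant (a + b) := by
  intro σ x
  simp only [LinearMap.add_apply, map_add, ha σ x, hb σ x]

theorem isEquivariant_zero {n : ℕ} {μ κ ν : YoungDiagram} :
    IsEquivariant (0 : Sp n ν →ₗ[ℂ] Sq n μ κ) := by
  intro σ x
  simp

theorem isEquivariant_smul {n : ℕ} {μ κ ν : YoungDiagram} (c : ℂ) {a : Sp n ν →ₗ[ℂ] Sq n μ κ}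
    (ha : IsEquivariant a) : IsEquivariant (c • a) := by
  intro σ x
  simp only [LinearMap.smul_apply, map_smul, ha σ x]

/-- The equivariant linear maps from the Specht module of `ν` into the tensor product of those of
`μ` and `κ`. -/
noncomputable def equivHom (n : ℕ) (μ κ ν : YoungDiagram) :
    Submodule ℂ (Sp n ν →ₗ[ℂ] Sq n μ κ) where
  carrier := {φ | IsEquivariant φ}
  add_mem' := isEquivariant_add
  zero_mem' := isEquivariant_zero
  smul_mem' c _ ha := isEquivariant_smul c ha

/-- The Kronecker coefficient: the dimension of the space of equivariant maps. -/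
noncomputable def kron (n : ℕ) (μ κ ν : YoungDiagram) : ℕ :=
  Module.finrank ℂ (equivHom n μ κ ν)

theorem sp_finite (n : ℕ) (μ : YoungDiagram) : FiniteDimensional ℂ (Sp n μ) := by
  change FiniteDimensional ℂ (specht n μ)
  unfold specht
  exact FiniteDimensional.span_of_finite ℂ (Set.finite_range _)

theorem kron_pos {n : ℕ} {μ κ ν : YoungDiagram}
    (φ : specht n ν →ₗ[ℂ] TensorProduct ℂ (specht n μ) (specht n κ)) (h0 : φ ≠ 0)
    (hφ : ∀ (σ : Equiv.Perm (Fin n)) x,
      φ (spechtAct ν σ x) = TensorProduct.map (spechtAct μ σ) (spechtAct κ σ) (φ x)) :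
    0 < kron n μ κ ν := by
  have := sp_finite n ν
  have := sp_finite n μ
  have := sp_finite n κ
  have : FiniteDimensional ℂ (Sq n μ κ) :=
    inferInstanceAs (FiniteDimensional ℂ (TensorProduct ℂ (Sp n μ) (Sp n κ)))
  let ψ : Sp n ν →ₗ[ℂ] Sq n μ κ := φ
  have hmem : ψ ∈ equivHom n μ κ ν := hφ
  have hne : ψ ≠ 0 := h0
  unfold kron
  refine Submodule.one_le_finrank_iff.2 ?_
  intro h
  exact hne ((Submodule.eq_bot_iff _).1 h ψ hmem)

end Vale.Agent.P197
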