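import Vale.Agent.P197.Box
import Vale.Agent.P197.Area

/-!
# The parity criterion holds for every histogram on the staircase
-/

namespace Vale.Agent.P197

open Finset

set_option linter.unusedSectionVars false

theorem two_card_cell : ∀ m : ℕ, 2 * Fintype.card (Cell m) = m * (m + 1)
  | 0 => by simp
  | m + 1 => by
    have := two_card_cell m
    rw [card_cell_succ]
    ring_nf at this ⊢
    omega

theorem good_zero (col : Cell 0 → ℕ) : Good 0 col := by
  have : IsEmpty (Cell 0) := ⟨fun x => Fin.elim0 x.1.1⟩
  refine ⟨Equiv.refl _, fun _ => 0, fun i => ?_, ?_⟩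
  · simp [sz, cj]
  · have hpi : piSet 0 = {Equiv.refl _} := by
      ext π
      simp only [mem_piSet, Finset.mem_singleton]
      exact ⟨fun _ => Subsingleton.elim _ _, fun _ => ⟨isEmptyElim, isEmptyElim,
        isEmptyElim, isEmptyElim⟩⟩
    unfold cnt
    rw [hpi, sum_singleton]
    exact if_pos (fun x => isEmptyElim x)

/-- Every colouring of every staircase satisfies the parity criterion. -/
theorem good_all : ∀ (m : ℕ) (col : Cell m → ℕ), Good m col := by
  intro m
  induction m using Nat.strong_induction_on with
  | _ m ih =>
    intro col0
    match m with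
    | 0 => exact good_zero col0
    | k + 1 =>
      obtain ⟨f, hf, hh⟩ := exists_sorted col0
      refine good_of_relabel f hf ?_
      generalize f ∘ col0 = col at hh ⊢
      by_cases hl : k + 1 ≤ sz col 0
      · exact step_long (ih k (by omega)) col 0 hl
      by_cases ha : k + 1 ≤ cj col 0
      · exact good_of_transp hh (step_long (ih k (by omega)) (transp col) 0 (by rw [sz_transp]; exact ha))
      have hsum : 2 * ∑ v ∈ range (cj col 0), sz col v = (k + 1) * (k + 1 + 1) := by
        rw [sum_sz col (range (cj col 0)) (fun x => mem_range.2
          ((lt_cj_iff hh 0 (col x)).1 (sz_pos col x))), two_card_cell]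
      rcases k with _ | j
      · have h0 : cj col 0 = 0 := by omega
        rw [h0] at hsum
        simp at hsum
      · rcases box_repeat (j + 2) (sz col) (cj col) hh (antitone_cj col) (lt_cj_iff hh)
          (by omega) (by omega) hsum with
          ⟨c, d, hc, hcd, _, he, hbig⟩ | ⟨c, d, hc, hcd, _, he, hbig⟩
        · exact step_box (ih j (by omega)) col 0 c d (sz col c) (by omega) (by omega) (by omega)
            rfl he.symm (hh (Nat.zero_le c)) (by omega) hbig
        · refine good_of_transp hh (step_box (ih j (by omega)) (transp col) 0 c d (cj col c)
            (by omega) (by omega) (by omega) (sz_transp col c)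
            ((sz_transp col d).trans he.symm) ?_ ?_ ?_)
          · rw [sz_transp]; exact antitone_cj col (Nat.zero_le c)
          · rw [sz_transp]; omega
          · rw [sz_transp]; exact hbig

end Vale.Agent.P197
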