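import Vale.Agent.P197.Hist
import Vale.Agent.P197.Alt

/-!
# The two induction steps
-/

namespace Vale.Agent.P197

open Finset

set_option linter.unusedSectionVars false

section generic

variable {X A B : Type*} [Fintype X] [DecidableEq X] [Fintype A] [DecidableEq A] [Fintype B]
  [DecidableEq B]

theorem sz_equiv (e : X ≃ A) (f : A → ℕ) (c : ℕ) : sz (f ∘ e) c = sz f c := by
  unfold sz
  apply Finset.card_equiv e
  intro x; simp

theorem sz_elim (f : A → ℕ) (g : B → ℕ) (c : ℕ) : sz (Sum.elim f g) c = sz f c + sz g c := by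
  unfold sz
  rw [card_filter, card_filter, card_filter, Fintype.sum_sum_type]; rfl

theorem pair_equiv (e : X ≃ A) (f g : A → ℕ) : Pair (f ∘ e) (g ∘ e) ↔ Pair f g := by
  constructor
  · intro h x y a b
    exact e.symm.injective (h (e.symm x) (e.symm y) (by simpa using a) (by simpa using b))
  · intro h x y a b; exact e.injective (h (e x) (e y) a b)

/-- Delete a set of points from a colouring. -/
theorem exists_delete (col : X → ℕ) (D : Finset X) (h : Fintype.card X = D.card + Fintype.card B) :
    ∃ col1 : B → ℕ, ∀ c, sz col1 c + (D.filter (fun x => col x = c)).card = sz col c := by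
  have hc : Fintype.card B = Fintype.card {x // x ∉ D} := by
    rw [Fintype.card_subtype_compl, Fintype.card_coe]; omega
  obtain ⟨e⟩ : Nonempty (B ≃ {x // x ∉ D}) := ⟨Fintype.equivOfCardEq hc⟩
  refine ⟨fun b => col (e b).1, fun c => ?_⟩
  have : sz (fun b => col (e b).1) c = (Dᶜ.filter (fun x => col x = c)).card := by
    unfold sz
    refine Finset.card_bij (fun b _ => (e b).1) ?_ ?_ ?_
    · intro b hb; simp at hb ⊢; exact ⟨(e b).2, hb⟩
    · intro a _ b _ hab; exact e.injective (Subtype.ext hab)
    · intro x hx; simp at hx; exact ⟨e.symm ⟨x, hx.1⟩, by simp [hx.2], by simp⟩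
  rw [this]
  unfold sz
  rw [← card_union_of_disjoint
    (disjoint_filter_filter (disjoint_compl_left (a := D)))]
  congr 1; ext x; simp; tauto

/-- A colouring with a prescribed histogram. -/
theorem exists_hist (S : Finset ℕ) (n : ℕ → ℕ) (h : ∑ i ∈ S, n i = Fintype.card A) :
    ∃ f : A → ℕ, ∀ i, sz f i = if i ∈ S then n i else 0 := by
  obtain ⟨e⟩ : Nonempty (A ≃ (Σ i : S, Fin (n i))) := ⟨Fintype.equivOfCardEq (by
    rw [Fintype.card_sigma, ← h, ← Finset.sum_coe_sort]; simp)⟩
  refine ⟨(fun p : (Σ i : S, Fin (n i)) => p.1.val) ∘ e, fun i => ?_⟩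
  rw [sz_equiv e]
  unfold sz
  split_ifs with hi
  · trans (univ.image (fun a : Fin (n i) => (⟨⟨i, hi⟩, a⟩ : Σ i : S, Fin (n i)))).card
    · congr 1; ext ⟨⟨j, hj⟩, a⟩
      simp only [mem_filter, mem_univ, true_and, mem_image]
      constructor
      · intro h'; subst h'; exact ⟨a, rfl⟩
      · rintro ⟨b, hb⟩; exact (congrArg (fun p => p.1.val) hb).symm
    · rw [card_image_of_injective _ (fun a b hab => by simpa using hab)]; simp
  · rw [card_eq_zero, filter_eq_empty_iff]
    intro p _ hp; exact hi (hp ▸ p.1.2)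

theorem cj_mem_image (col : X → ℕ) (c : ℕ) (h : 0 < sz col c) : c ∈ univ.image col :=
  sz_pos_iff.1 h

end generic

theorem card_cell_succ (m : ℕ) : Fintype.card (Cell (m + 1)) = (m + 1) + Fintype.card (Cell m) := by
  rw [Fintype.card_congr (rowSplit m), Fintype.card_sum, Fintype.card_fin]

theorem cnt_peel_top {m : ℕ} (f : Fin (m + 1) → ℕ) (g : Cell m → ℕ) (π' : Equiv.Perm (Cell m)) :
    (Sum.elim f g ∘ diagSplit m) ∘ extPerm π' = Sum.elim f (g ∘ π') ∘ rowSplit m := by
  funext x
  simp only [extPerm, Function.comp, Equiv.trans_apply, Equiv.apply_symm_apply]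
  rcases rowSplit m x with s | y <;> simp

/-- Histogram identity for a long fibre. -/
theorem hist_long {m : ℕ} (col : Cell (m + 1) → ℕ) (colY : Cell m → ℕ) (c0 R : ℕ)
    (hR : R = sz colY c0) (h : m + 1 ≤ sz col c0) (hR' : R + (m + 1) = sz col c0)
    (hsY : ∀ c, sz colY c + (if c = c0 then m + 1 else 0) = sz col c) (i : ℕ) :
    sz (fun s : Fin (m + 1) => R + s.val) i + cj colY i = cj col i := by
  classical
  have hc0 : c0 ∈ univ.image col := sz_pos_iff.1 (by omega)
  rw [cj_eq colY (univ.image col) (fun c hc => sz_pos_iff.1 (by have := hsY c; omega))]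
  unfold cj
  rw [← insert_erase hc0, filter_insert, filter_insert]
  have hrest : ((univ.image col).erase c0).filter (fun c => i < sz colY c)
      = ((univ.image col).erase c0).filter (fun c => i < sz col c) :=
    filter_congr (fun c hc => by
      have := hsY c; rw [if_neg (ne_of_mem_erase hc)] at this; rw [← this]; simp)
  rw [hrest]
  set G := ((univ.image col).erase c0).filter (fun c => i < sz col c) with hG
  have hnot : c0 ∉ G := by simp [hG]
  have htop : sz (fun s : Fin (m + 1) => R + s.val) i = if R ≤ i ∧ i < R + (m + 1) then 1 else 0 := by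
    unfold sz
    split_ifs with hh
    · rw [card_eq_one]; refine ⟨⟨i - R, by omega⟩, ?_⟩; ext s; simp [Fin.ext_iff]; omega
    · rw [card_eq_zero, filter_eq_empty_iff]; intro s _ e; have := s.isLt; simp only at e; omega
  rw [htop]
  split_ifs <;> (try rw [card_insert_of_notMem hnot]) <;> omega

/-- Step for a long fibre. -/
theorem step_long {m : ℕ} (ih : ∀ col : Cell m → ℕ, Good m col) (col : Cell (m + 1) → ℕ) (c0 : ℕ)
    (h : m + 1 ≤ sz col c0) : Good (m + 1) col := by
  classical
  obtain ⟨D, hD, hDcard⟩ := exists_subset_card_eq (s := univ.filter (fun x => col x = c0)) h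
  obtain ⟨col1, h1⟩ := exists_delete (B := Cell m) col D (by rw [card_cell_succ, hDcard])
  have hDc : ∀ c, (D.filter (fun x => col x = c)).card = if c = c0 then m + 1 else 0 := by
    intro c
    split_ifs with hc
    · rw [filter_true_of_mem (fun x hx => by have := hD hx; simp at this; rw [this, hc]), hDcard]
    · rw [card_eq_zero, filter_eq_empty_iff]
      intro x hx e; have := hD hx; simp at this; exact hc (e ▸ this)
  obtain ⟨σ1, L1, hL1, hc1⟩ := ih col1
  set colY := col1 ∘ σ1 with hY
  have hsY : ∀ c, sz colY c + (if c = c0 then m + 1 else 0) = sz col c := fun c => by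
    rw [hY, sz_comp, ← hDc]; exact h1 c
  set R := sz colY c0 with hR
  have hR' : R + (m + 1) = sz col c0 := by have := hsY c0; rw [if_pos rfl] at this; exact this
  let colF : Cell (m + 1) → ℕ := Sum.elim (fun _ => c0) colY ∘ rowSplit m
  let L : Cell (m + 1) → ℕ := Sum.elim (fun s : Fin (m + 1) => R + s.val) L1 ∘ diagSplit m
  have hF : ∀ c, sz colF c = sz col c := by
    intro c
    rw [sz_equiv, sz_elim, ← hsY c, add_comm]
    congr 1
    unfold sz
    split_ifs with hc
    · rw [filter_true_of_mem (fun x _ => hc.symm)]; simp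
    · rw [card_eq_zero, filter_eq_empty_iff]; intro x _ e; exact hc e.symm
  have hLY : ∀ i, sz L1 i = cj colY i := fun i => by rw [hL1 i, hY]; exact (cj_congr (sz_comp col1 σ1) i).symm
  have hL : ∀ i, sz L i = cj colF i := by
    intro i
    rw [sz_equiv, sz_elim, hLY i, cj_congr hF i]
    exact hist_long col colY c0 R hR h hR' hsY i
  refine good_of_sz hF ⟨Equiv.refl _, L, hL, ?_⟩
  rw [Equiv.coe_refl, Function.comp_id]
  have hinv : ∀ (π : Equiv.Perm (Cell (m + 1))) (s t : Fin (m + 1)),
      (fun M => if Pair colF M then (1 : ZMod 2) else 0) (L ∘ π ∘ Equiv.swap (topCell s) (topCell t))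
        = (fun M => if Pair colF M then (1 : ZMod 2) else 0) (L ∘ π) := by
    intro π s t
    set w := Equiv.swap (topCell s) (topCell t)
    have hcol : colF ∘ w = colF := by
      funext x
      simp only [Function.comp, w, Equiv.swap_apply_def]
      split_ifs with a b
      · subst a; simp [colF, topCell]
      · subst b; simp [colF, topCell]
      · rfl
    have hp := pair_equiv w colF (L ∘ π)
    rw [hcol] at hp
    simp only [show (L ∘ ⇑π ∘ ⇑w) = (L ∘ ⇑π) ∘ ⇑w from rfl, hp]
  unfold cnt at hc1 ⊢
  rw [peel (fun M => if Pair colF M then (1 : ZMod 2) else 0) L hinv]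
  rw [← hc1]
  refine sum_congr rfl (fun π' _ => ?_)
  simp only [L, cnt_peel_top]
  congr 1
  apply propext
  rw [pair_equiv (rowSplit m)]
  constructor
  · intro hp x y a b
    exact Sum.inr_injective (hp (Sum.inr x) (Sum.inr y) a b)
  · intro hp x y a b
    have hlt := label_lt (col := colY) (L := L1 ∘ π')
      (fun i => (sz_comp L1 π' i).trans (hLY i)) hp
    rcases x with s | x <;> rcases y with t | y
    · simp at b; exact congrArg Sum.inl (Fin.ext b)
    · simp at a b; have := hlt y; rw [← a] at this; simp only [Function.comp] at this; omega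
    · simp at a b; have := hlt x; rw [a] at this; simp only [Function.comp] at this; omega
    · exact congrArg Sum.inr (hp x y a b)

theorem cnt_peel_top2 {m : ℕ} (f : Fin (m + 2) → ℕ) (g : Fin (m + 1) → ℕ) (k : Cell m → ℕ)
    (π' : Equiv.Perm (Cell m)) :
    (Sum.elim f (Sum.elim g k ∘ diagSplit m) ∘ diagSplit (m + 1)) ∘ extPerm (extPerm π') =
      Sum.elim f (Sum.elim g (k ∘ π') ∘ rowSplit m) ∘ rowSplit (m + 1) := by
  rw [cnt_peel_top f (Sum.elim g k ∘ diagSplit m) (extPerm π'), cnt_peel_top g k π']

end Vale.Agent.P197
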